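import Vale.Agent.N325M.Stab
import Mathlib.Probability.Distributions.Gaussian.Real
import Mathlib.Probability.CDF
import Mathlib.Analysis.Calculus.ParametricIntegral
import Mathlib.Analysis.Calculus.InverseFunctionTheorem.Deriv
import Mathlib.Analysis.SpecialFunctions.Trigonometric.ArctanDeriv
import Mathlib.MeasureTheory.Integral.IntegralEqImproper
import Mathlib.Analysis.Real.Pi.Bounds
import Mathlib.Analysis.Complex.ExponentialBounds

/-!
Two functions with negative semidefinite twisted Hessian: a power, and the probability of a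
quadrant for a pair of correlated Gaussian variables.
-/

namespace Vale.Agent.N325M

open MeasureTheory ProbabilityTheory Set Filter Topology Real

/-- The power function. -/
noncomputable def bellPow {ρ : ℝ} (h0 : 0 ≤ ρ) :
    Bell (fun x y => x ^ (1 + ρ)⁻¹ * y ^ (1 + ρ)⁻¹) ρ where
  A x y := (1 + ρ)⁻¹ * x ^ ((1 + ρ)⁻¹ - 1) * y ^ (1 + ρ)⁻¹
  B x y := x ^ (1 + ρ)⁻¹ * ((1 + ρ)⁻¹ * y ^ ((1 + ρ)⁻¹ - 1))
  A₁ x y := (1 + ρ)⁻¹ * (((1 + ρ)⁻¹ - 1) * x ^ ((1 + ρ)⁻¹ - 1 - 1)) * y ^ (1 + ρ)⁻¹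
  A₂ x y := (1 + ρ)⁻¹ * x ^ ((1 + ρ)⁻¹ - 1) * ((1 + ρ)⁻¹ * y ^ ((1 + ρ)⁻¹ - 1))
  B₂ x y := x ^ (1 + ρ)⁻¹ * ((1 + ρ)⁻¹ * (((1 + ρ)⁻¹ - 1) * y ^ ((1 + ρ)⁻¹ - 1 - 1)))
  dA _ hx _ _ := (hasDerivAt_rpow_const (Or.inl hx.1.ne')).mul_const _
  dB _ _ _ hy := (hasDerivAt_rpow_const (Or.inl hy.1.ne')).const_mul _
  dA₁ _ hx _ _ := ((hasDerivAt_rpow_const (Or.inl hx.1.ne')).const_mul _).mul_const _
  dA₂ _ _ _ hy := (hasDerivAt_rpow_const (Or.inl hy.1.ne')).const_mul _
  dB₂ _ _ _ hy := ((hasDerivAt_rpow_const (Or.inl hy.1.ne')).const_mul _).const_mul _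
  c₁ := (continuousOn_const.mul (continuousOn_const.mul (continuousOn_fst.rpow_const
    fun _ h => Or.inl h.1.1.ne'))).mul (continuousOn_snd.rpow_const fun _ h => Or.inl h.2.1.ne')
  c₂ := (continuousOn_const.mul (continuousOn_fst.rpow_const fun _ h => Or.inl h.1.1.ne')).mul
    (continuousOn_const.mul (continuousOn_snd.rpow_const fun _ h => Or.inl h.2.1.ne'))
  c₃ := (continuousOn_fst.rpow_const fun _ h => Or.inl h.1.1.ne').mul (continuousOn_const.mul
    (continuousOn_const.mul (continuousOn_snd.rpow_const fun _ h => Or.inl h.2.1.ne')))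
  n₁ x hx y hy := by
    have h1 : (1 + ρ)⁻¹ - 1 ≤ 0 := sub_nonpos.2 (inv_le_one_of_one_le₀ (by linarith))
    exact mul_nonpos_of_nonpos_of_nonneg (mul_nonpos_of_nonneg_of_nonpos (by positivity)
      (mul_nonpos_of_nonpos_of_nonneg h1 (rpow_nonneg hx.1.le _))) (rpow_nonneg hy.1.le _)
  n₂ x hx y hy := by
    have h1 : (1 + ρ)⁻¹ - 1 ≤ 0 := sub_nonpos.2 (inv_le_one_of_one_le₀ (by linarith))
    exact mul_nonpos_of_nonneg_of_nonpos (rpow_nonneg hx.1.le _) (mul_nonpos_of_nonneg_of_nonpos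
      (by positivity) (mul_nonpos_of_nonpos_of_nonneg h1 (rpow_nonneg hy.1.le _)))
  det x hx y hy := by
    have h1 : (1 + ρ)⁻¹ - 1 = -(ρ * (1 + ρ)⁻¹) := by
      field_simp
      ring
    simp only [rpow_sub_one hx.1.ne', rpow_sub_one hy.1.ne']
    rw [h1]
    exact le_of_eq (by ring)
  ge x hx y hy := by
    have h1 : (1 + ρ)⁻¹ ≤ 1 := inv_le_one_of_one_le₀ (by linarith)
    have h2 := rpow_le_rpow_of_exponent_ge hx.1 hx.2.le h1
    have h3 := rpow_le_rpow_of_exponent_ge hy.1 hy.2.le h1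
    rw [rpow_one] at h2 h3
    exact mul_le_mul h2 h3 hy.1.le (rpow_nonneg hx.1.le _)

/-- The standard normal density. -/
noncomputable def pdf (x : ℝ) : ℝ := (√(2 * π))⁻¹ * exp (-x ^ 2 / 2)

/-- The standard normal distribution function. -/
noncomputable def Phi (t : ℝ) : ℝ := ∫ x in Iic t, pdf x

theorem pdf_eq : gaussianPDFReal 0 1 = pdf := by
  funext x
  simp [gaussianPDFReal_def, pdf]

theorem pdf_pos (x : ℝ) : 0 < pdf x := by
  unfold pdf
  positivity

theorem pdf_cont : Continuous pdf := by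
  unfold pdf
  fun_prop

theorem pdf_int : Integrable pdf := pdf_eq ▸ integrable_gaussianPDFReal 0 1

theorem pdf_total : ∫ x, pdf x = 1 := pdf_eq ▸ integral_gaussianPDFReal_eq_one 0 one_ne_zero

theorem pdf_neg (x : ℝ) : pdf (-x) = pdf x := by simp [pdf]

theorem pdf_le_one (x : ℝ) : pdf x ≤ 1 := by
  have h1 : 1 ≤ √(2 * π) := one_le_sqrt.2 (by linarith [pi_gt_three])
  refine mul_le_one₀ (inv_le_one_of_one_le₀ h1) (exp_pos _).le (exp_le_one_iff.2 ?_)
  nlinarith [sq_nonneg x]

theorem pdf_mono {x y : ℝ} (h : x ^ 2 ≤ y ^ 2) : pdf y ≤ pdf x :=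
  mul_le_mul_of_nonneg_left (exp_le_exp.2 (by linarith)) (by positivity)

theorem mul_pdf_int : Integrable fun x => pdf x * x := by
  refine ((integrable_mul_exp_neg_mul_sq (b := 1 / 2) (by norm_num)).const_mul
    (√(2 * π))⁻¹).congr (ae_of_all _ fun x => ?_)
  simp only [pdf]
  rw [show -(1 / 2) * x ^ 2 = -x ^ 2 / 2 by ring]
  ring

theorem real_Iic (t : ℝ) : (gaussianReal 0 1).real (Iic t) = Phi t := by
  rw [measureReal_def, gaussianReal_apply_eq_integral _ one_ne_zero, pdf_eq,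
    ENNReal.toReal_ofReal (setIntegral_nonneg measurableSet_Iic fun _ _ => (pdf_pos _).le), Phi]

theorem Phi_eq : Phi = cdf (gaussianReal 0 1) := by
  funext t
  rw [cdf_eq_real, real_Iic]

theorem Phi_nonneg (t : ℝ) : 0 ≤ Phi t := Phi_eq ▸ cdf_nonneg _ t

theorem Phi_le_one (t : ℝ) : Phi t ≤ 1 := Phi_eq ▸ cdf_le_one _ t

theorem Phi_bot : Tendsto Phi atBot (𝓝 0) := Phi_eq ▸ tendsto_cdf_atBot _

theorem Phi_top : Tendsto Phi atTop (𝓝 1) := Phi_eq ▸ tendsto_cdf_atTop _

theorem deriv_Iic {g : ℝ → ℝ} (hc : Continuous g) (hi : Integrable g) (t : ℝ) :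
    HasStrictDerivAt (fun s => ∫ x in Iic s, g x) (g t) t := by
  have h : (fun s => ∫ x in Iic s, g x) = fun s => (∫ x in (0 : ℝ)..s, g x) + ∫ x in Iic 0, g x := by
    funext s
    rw [← intervalIntegral.integral_Iic_sub_Iic hi.integrableOn hi.integrableOn, sub_add_cancel]
  rw [h]
  exact (hc.integral_hasStrictDerivAt 0 t).add_const _

theorem Phi_strict (t : ℝ) : HasStrictDerivAt Phi (pdf t) t := deriv_Iic pdf_cont pdf_int t

theorem Phi_deriv (t : ℝ) : HasDerivAt Phi (pdf t) t := (Phi_strict t).hasDerivAt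

theorem Phi_cont : Continuous Phi := continuous_iff_continuousAt.2 fun t => (Phi_deriv t).continuousAt

theorem Phi_mono : StrictMono Phi :=
  strictMono_of_deriv_pos fun t => by rw [(Phi_deriv t).deriv]; exact pdf_pos t

theorem const_of_deriv {f : ℝ → ℝ} (h : ∀ t, HasDerivAt f 0 t) (s t : ℝ) : f s = f t :=
  is_const_of_deriv_eq_zero (fun t => (h t).differentiableAt) (fun t => (h t).deriv) s t

theorem Phi_neg (t : ℝ) : Phi (-t) = 1 - Phi t := by
  have h1 := intervalIntegral.integral_Iic_add_Ioi (b := t) pdf_int.integrableOn pdf_int.integrableOn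
  have h2 := integral_comp_neg_Iic (-t) pdf
  simp only [pdf_neg, neg_neg] at h2
  rw [pdf_total] at h1
  unfold Phi
  linarith

theorem Phi_zero : Phi 0 = 1 / 2 := by
  have := Phi_neg 0
  rw [neg_zero] at this
  linarith

theorem Phi_lt_one (t : ℝ) : Phi t < 1 := (Phi_mono (lt_add_one t)).trans_le (Phi_le_one _)

theorem Phi_pos (t : ℝ) : 0 < Phi t := (Phi_nonneg _).trans_lt (Phi_mono (sub_one_lt t))

/-- The quantile function. -/
noncomputable def quant (x : ℝ) : ℝ := Function.invFun Phi x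

theorem quant_Phi (t : ℝ) : quant (Phi t) = t := Function.leftInverse_invFun Phi_mono.injective t

theorem Phi_quant {x : ℝ} (hx : x ∈ Ioo (0 : ℝ) 1) : Phi (quant x) = x :=
  Function.invFun_eq (mem_range_of_exists_le_of_exists_ge Phi_cont
    (Phi_bot.eventually (ge_mem_nhds hx.1)).exists (Phi_top.eventually (le_mem_nhds hx.2)).exists)

theorem quant_deriv {x : ℝ} (hx : x ∈ Ioo (0 : ℝ) 1) : HasDerivAt quant (pdf (quant x))⁻¹ x := by
  have := (Phi_strict (quant x)).to_local_left_inverse (pdf_pos _).ne'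
    (Eventually.of_forall quant_Phi)
  rw [Phi_quant hx] at this
  exact this.hasDerivAt

theorem quant_cont : ContinuousOn quant (Ioo 0 1) := fun _ hx =>
  (quant_deriv hx).continuousAt.continuousWithinAt

theorem int_mul_Phi {g : ℝ → ℝ} (hg : Continuous g) : Integrable fun u => pdf u * Phi (g u) :=
  pdf_int.mul_bdd (c := 1) (Phi_cont.comp hg).aestronglyMeasurable (ae_of_all _ fun u => by
    rw [Real.norm_eq_abs, abs_of_nonneg (Phi_nonneg _)]
    exact Phi_le_one _)

theorem deriv_par (S : Set ℝ) {p q : ℝ → ℝ} (hp : Continuous p) (hq : Continuous q)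
    (hi : Integrable fun u => pdf u * p u) (t : ℝ) :
    HasDerivAt (fun t => ∫ u in S, pdf u * Phi (p u * t + q u))
      (∫ u in S, pdf u * (pdf (p u * t + q u) * p u)) t := by
  have hc : ∀ t, Continuous fun u => p u * t + q u := fun t => by fun_prop
  refine (hasDerivAt_integral_of_dominated_loc_of_deriv_le (μ := volume.restrict S)
    (F := fun t u => pdf u * Phi (p u * t + q u))
    (F' := fun t u => pdf u * (pdf (p u * t + q u) * p u)) (bound := fun u => ‖pdf u * p u‖)
    (s := univ) univ_mem (Eventually.of_forall fun t =>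
      (pdf_cont.mul (Phi_cont.comp (hc t))).aestronglyMeasurable) (int_mul_Phi (hc t)).integrableOn
    (pdf_cont.mul ((pdf_cont.comp (hc t)).mul hp)).aestronglyMeasurable
    (ae_of_all _ fun u s _ => ?_) hi.norm.integrableOn (ae_of_all _ fun u s _ => ?_)).2
  · rw [mul_left_comm, norm_mul, Real.norm_eq_abs, abs_of_pos (pdf_pos _)]
    exact mul_le_of_le_one_left (norm_nonneg _) (pdf_le_one _)
  · refine ((Phi_deriv (p u * s + q u)).comp s
      (((hasDerivAt_id s).const_mul (p u)).add_const (q u))).const_mul (pdf u) |>.congr_deriv ?_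
    rw [mul_one]

theorem shift_deriv (m : ℝ) (r : ℝ) (u : ℝ) :
    HasDerivAt (fun u => Phi ((u - m) / r)) (pdf ((u - m) / r) * r⁻¹) u :=
  ((Phi_deriv ((u - m) / r)).comp u (h := fun u => (u - m) / r)
    (((hasDerivAt_id u).sub_const m).div_const r)).congr_deriv (by rw [one_div])

theorem shift_int (m : ℝ) {r : ℝ} (hr : 0 < r) : Integrable fun u => pdf ((u - m) / r) * r⁻¹ :=
  ((pdf_int.comp_div hr.ne').comp_sub_right m).mul_const _

theorem shift_bot (m : ℝ) {r : ℝ} (hr : 0 < r) :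
    Tendsto (fun u => Phi ((u - m) / r)) atBot (𝓝 0) :=
  Phi_bot.comp ((tendsto_atBot_add_const_right _ (-m) tendsto_id).atBot_div_const hr)

theorem shift_Iic (m : ℝ) {r : ℝ} (hr : 0 < r) (s : ℝ) :
    ∫ u in Iic s, pdf ((u - m) / r) * r⁻¹ = Phi ((s - m) / r) := by
  rw [integral_Iic_of_hasDerivAt_of_tendsto' (fun u _ => shift_deriv m r u)
    (shift_int m hr).integrableOn (shift_bot m hr), sub_zero]

theorem shift_total (m : ℝ) {r : ℝ} (hr : 0 < r) : ∫ u, pdf ((u - m) / r) * r⁻¹ = 1 := by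
  rw [integral_of_hasDerivAt_of_tendsto (shift_deriv m r) (shift_int m hr) (shift_bot m hr)
    (Phi_top.comp ((tendsto_atTop_add_const_right _ (-m) tendsto_id).atTop_div_const hr)), sub_zero]

section Quadrant

variable {ρ r : ℝ}

/-- The probability of the strip or quadrant. -/
noncomputable def quad (ρ r : ℝ) (S : Set ℝ) (t : ℝ) : ℝ := ∫ u in S, pdf u * Phi ((t - ρ * u) / r)

theorem pdf_swap (hr : 0 < r) (h : r ^ 2 = 1 - ρ ^ 2) (s t : ℝ) :
    pdf s * pdf ((t - ρ * s) / r) = pdf t * pdf ((s - ρ * t) / r) := by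
  have h1 : -s ^ 2 / 2 + -((t - ρ * s) / r) ^ 2 / 2 = -t ^ 2 / 2 + -((s - ρ * t) / r) ^ 2 / 2 := by
    field_simp
    rw [h]
    ring
  unfold pdf
  rw [mul_mul_mul_comm, ← exp_add, h1, exp_add, mul_mul_mul_comm]

theorem quad_deriv (hr : 0 < r) (h : r ^ 2 = 1 - ρ ^ 2) (S : Set ℝ) (t : ℝ) :
    HasDerivAt (quad ρ r S) (pdf t * ∫ u in S, pdf ((u - ρ * t) / r) * r⁻¹) t := by
  have h1 := deriv_par S (p := fun _ => r⁻¹) (q := fun u => -(ρ * u) / r) continuous_const
    (by fun_prop) (pdf_int.mul_const _) t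
  have h2 : ∀ t u, r⁻¹ * t + -(ρ * u) / r = (t - ρ * u) / r := fun t u => by ring
  simp only [h2, ← mul_assoc, pdf_swap hr h _ t] at h1
  simp only [mul_assoc, integral_const_mul] at h1
  exact h1

theorem quad_cont (t : ℝ) : Continuous fun u => (t - ρ * u) / r := by fun_prop

theorem quad_univ (hr : 0 < r) (h : r ^ 2 = 1 - ρ ^ 2) (t : ℝ) : quad ρ r univ t = Phi t := by
  have h1 := const_of_deriv (f := fun t => quad ρ r univ t - Phi t) (fun t => by
    refine ((quad_deriv hr h univ t).sub (Phi_deriv t)).congr_deriv ?_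
    rw [Measure.restrict_univ, shift_total _ hr, mul_one, sub_self]) t 0
  have h2 : quad ρ r univ 0 = 1 / 2 := by
    have h3 := integral_neg_eq_self (fun u => pdf u * Phi ((0 - ρ * u) / r)) volume
    have h4 : ∀ u, pdf (-u) * Phi ((0 - ρ * -u) / r) = pdf u - pdf u * Phi ((0 - ρ * u) / r) := by
      intro u
      rw [pdf_neg, show (0 - ρ * -u) / r = -((0 - ρ * u) / r) by ring, Phi_neg]
      ring
    simp only [h4] at h3
    rw [integral_sub pdf_int (int_mul_Phi (quad_cont 0)), pdf_total] at h3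
    rw [quad, Measure.restrict_univ]
    linarith
  simp only [h2, Phi_zero] at h1
  linarith

theorem quad_ge (h0 : 0 ≤ ρ) (hr : 0 < r) (h : r ^ 2 = 1 - ρ ^ 2) (s t : ℝ) :
    Phi s * Phi t ≤ quad ρ r (Iic s) t := by
  have hi := int_mul_Phi (quad_cont (ρ := ρ) (r := r) t)
  have hm : ∀ {u v}, u ≤ v → Phi ((t - ρ * v) / r) ≤ Phi ((t - ρ * u) / r) := fun huv =>
    Phi_mono.monotone (div_le_div_of_nonneg_right
      (by linarith [mul_le_mul_of_nonneg_left huv h0]) hr.le)
  rcases le_total (Phi t) (Phi ((t - ρ * s) / r)) with h1 | h1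
  · rw [Phi.eq_1 s, ← integral_mul_const]
    exact setIntegral_mono_on (pdf_int.mul_const _).integrableOn hi.integrableOn measurableSet_Iic
      fun u hu => mul_le_mul_of_nonneg_left (h1.trans (hm hu)) (pdf_pos _).le
  · have h2 := intervalIntegral.integral_Iic_add_Ioi (b := s) hi.integrableOn hi.integrableOn
    have h3 := intervalIntegral.integral_Iic_add_Ioi (b := s) pdf_int.integrableOn
      pdf_int.integrableOn
    have h4 := quad_univ hr h t
    rw [quad, Measure.restrict_univ] at h4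
    have h5 := setIntegral_mono_on (s := Ioi s) hi.integrableOn
      (pdf_int.mul_const (Phi t)).integrableOn measurableSet_Ioi
      fun u hu => mul_le_mul_of_nonneg_left ((hm (le_of_lt hu)).trans h1) (pdf_pos _).le
    rw [integral_mul_const] at h5
    rw [pdf_total] at h3
    have h6 : ∫ u in Ioi s, pdf u = 1 - Phi s := by
      unfold Phi
      linarith
    rw [h6] at h5
    unfold quad
    linarith

theorem arg_deriv₁ (t : ℝ) {x : ℝ} (hx : x ∈ Ioo (0 : ℝ) 1) :
    HasDerivAt (fun s => Phi ((t - ρ * quant s) / r))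
      (pdf ((t - ρ * quant x) / r) * (-(ρ * (pdf (quant x))⁻¹) / r)) x :=
  (Phi_deriv _).comp x ((((quant_deriv hx).const_mul ρ).const_sub t).div_const r)

theorem arg_deriv₂ (t : ℝ) {x : ℝ} (hx : x ∈ Ioo (0 : ℝ) 1) :
    HasDerivAt (fun s => Phi ((quant s - ρ * t) / r))
      (pdf ((quant x - ρ * t) / r) * ((pdf (quant x))⁻¹ / r)) x :=
  (Phi_deriv _).comp x (((quant_deriv hx).sub_const (ρ * t)).div_const r)

/-- The quadrant probability as a function of the two marginal probabilities. -/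
noncomputable def bellGauss (h0 : 0 ≤ ρ) (hr : 0 < r) (h : r ^ 2 = 1 - ρ ^ 2) :
    Bell (fun x y => quad ρ r (Iic (quant x)) (quant y)) ρ where
  A x y := Phi ((quant y - ρ * quant x) / r)
  B x y := Phi ((quant x - ρ * quant y) / r)
  A₁ x y := pdf ((quant y - ρ * quant x) / r) * (-(ρ * (pdf (quant x))⁻¹) / r)
  A₂ x y := pdf ((quant y - ρ * quant x) / r) * ((pdf (quant y))⁻¹ / r)
  B₂ x y := pdf ((quant x - ρ * quant y) / r) * (-(ρ * (pdf (quant y))⁻¹) / r)
  dA x hx y _ := by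
    refine ((deriv_Iic (pdf_cont.mul (Phi_cont.comp (quad_cont (quant y))))
      (int_mul_Phi (quad_cont (quant y))) (quant x)).hasDerivAt.comp x (quant_deriv hx)).congr_deriv ?_
    have := (pdf_pos (quant x)).ne'
    simp only [Function.comp_apply, Pi.mul_apply]
    field_simp
  dB x _ y hy := by
    refine ((quad_deriv hr h (Iic (quant x)) (quant y)).comp y (quant_deriv hy)).congr_deriv ?_
    have := (pdf_pos (quant y)).ne'
    rw [shift_Iic _ hr]
    field_simp
  dA₁ x hx y _ := arg_deriv₁ _ hx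
  dA₂ x _ y hy := arg_deriv₂ _ hy
  dB₂ x _ y hy := arg_deriv₁ _ hy
  c₁ := by
    have q1 := quant_cont.comp (continuousOn_fst (s := Ioo (0 : ℝ) 1 ×ˢ Ioo (0 : ℝ) 1)) fun _ h => h.1
    have q2 := quant_cont.comp (continuousOn_snd (s := Ioo (0 : ℝ) 1 ×ˢ Ioo (0 : ℝ) 1)) fun _ h => h.2
    exact (pdf_cont.comp_continuousOn ((q2.sub (continuousOn_const.mul q1)).div_const r)).mul
      ((continuousOn_const.mul ((pdf_cont.comp_continuousOn q1).inv₀
        fun _ _ => (pdf_pos _).ne')).neg.div_const r)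
  c₂ := by
    have q1 := quant_cont.comp (continuousOn_fst (s := Ioo (0 : ℝ) 1 ×ˢ Ioo (0 : ℝ) 1)) fun _ h => h.1
    have q2 := quant_cont.comp (continuousOn_snd (s := Ioo (0 : ℝ) 1 ×ˢ Ioo (0 : ℝ) 1)) fun _ h => h.2
    exact (pdf_cont.comp_continuousOn ((q2.sub (continuousOn_const.mul q1)).div_const r)).mul
      (((pdf_cont.comp_continuousOn q2).inv₀ fun _ _ => (pdf_pos _).ne').div_const r)
  c₃ := by
    have q1 := quant_cont.comp (continuousOn_fst (s := Ioo (0 : ℝ) 1 ×ˢ Ioo (0 : ℝ) 1)) fun _ h => h.1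
    have q2 := quant_cont.comp (continuousOn_snd (s := Ioo (0 : ℝ) 1 ×ˢ Ioo (0 : ℝ) 1)) fun _ h => h.2
    exact (pdf_cont.comp_continuousOn ((q1.sub (continuousOn_const.mul q2)).div_const r)).mul
      ((continuousOn_const.mul ((pdf_cont.comp_continuousOn q2).inv₀
        fun _ _ => (pdf_pos _).ne')).neg.div_const r)
  n₁ x _ y _ := by
    have := pdf_pos (quant x)
    exact mul_nonpos_of_nonneg_of_nonpos (pdf_pos _).le
      (div_nonpos_of_nonpos_of_nonneg (neg_nonpos.2 (by positivity)) hr.le)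
  n₂ x _ y _ := by
    have := pdf_pos (quant y)
    exact mul_nonpos_of_nonneg_of_nonpos (pdf_pos _).le
      (div_nonpos_of_nonpos_of_nonneg (neg_nonpos.2 (by positivity)) hr.le)
  det x _ y _ := by
    have h1 := (pdf_pos (quant x)).ne'
    have h2 := (pdf_pos (quant y)).ne'
    have h3 : pdf ((quant x - ρ * quant y) / r) =
        pdf (quant x) * pdf ((quant y - ρ * quant x) / r) / pdf (quant y) := by
      rw [pdf_swap hr h]
      field_simp
    rw [h3]
    refine le_of_eq ?_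
    field_simp
  ge x hx y hy := by
    have := quad_ge h0 hr h (quant x) (quant y)
    rwa [Phi_quant hx, Phi_quant hy] at this

theorem quad_eq_real (hr : 0 < r) (s t : ℝ) : ((gaussianReal 0 1).prod (gaussianReal 0 1)).real
    {p : ℝ × ℝ | p.1 ≤ s ∧ ρ * p.1 + r * p.2 ≤ t} = quad ρ r (Iic s) t := by
  have hm : MeasurableSet {p : ℝ × ℝ | p.1 ≤ s ∧ ρ * p.1 + r * p.2 ≤ t} :=
    (measurableSet_le measurable_fst measurable_const).inter
      (measurableSet_le (f := fun p : ℝ × ℝ => ρ * p.1 + r * p.2) (by fun_prop) measurable_const)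
  rw [← integral_indicator_one hm, integral_prod _ ((integrable_const 1).indicator hm),
    integral_gaussianReal_eq_integral_smul one_ne_zero, pdf_eq, quad,
    ← integral_indicator measurableSet_Iic]
  refine integral_congr_ae (ae_of_all _ fun u => ?_)
  by_cases hu : u ≤ s
  · have h1 : (fun v => {p : ℝ × ℝ | p.1 ≤ s ∧ ρ * p.1 + r * p.2 ≤ t}.indicator
        (1 : ℝ × ℝ → ℝ) (u, v)) = (Iic ((t - ρ * u) / r)).indicator 1 := by
      funext v
      have : ρ * u + r * v ≤ t ↔ v ≤ (t - ρ * u) / r := by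
        rw [le_div_iff₀ hr]
        constructor <;> intro h <;> linarith
      simp [indicator, hu, this]
    simp only [h1]
    rw [integral_indicator_one measurableSet_Iic, real_Iic, indicator_of_mem (mem_Iic.2 hu),
      smul_eq_mul]
  · simp [indicator, hu]

/-- The formula of Sheppard. -/
theorem sheppard (h0 : -1 < ρ) (h1 : ρ < 1) :
    quad ρ √(1 - ρ ^ 2) (Iic 0) 0 = 1 / 4 + arcsin ρ / (2 * π) := by
  have hi : Integrable fun u => pdf u * -u := by simpa using mul_pdf_int.neg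
  have h2 : ∀ a : ℝ, ∫ u in Iic 0, pdf u * (pdf (-u * a + 0) * -u) = 1 / (1 + a ^ 2) / (2 * π) := by
    intro a
    have ha : 0 < 1 + a ^ 2 := by positivity
    have hs : (√(2 * π))⁻¹ * (√(2 * π))⁻¹ = (2 * π)⁻¹ := by
      rw [← mul_inv, mul_self_sqrt (by positivity)]
    have h3 : ∀ u : ℝ, HasDerivAt (fun u => pdf u * pdf (-u * a + 0) / (1 + a ^ 2))
        (pdf u * (pdf (-u * a + 0) * -u)) u := by
      intro u
      have h4 : ∀ x, HasDerivAt pdf (-x * pdf x) x := fun x => by
        refine ((((hasDerivAt_id x).pow 2).neg.div_const 2).exp.const_mul _).congr_deriv ?_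
        simp only [pdf, id, Pi.neg_apply, Pi.pow_apply]
        push_cast
        ring
      refine (((h4 u).mul ((h4 _).comp u ((((hasDerivAt_id u).neg.mul_const a)).add_const 0))).div_const
        (1 + a ^ 2)).congr_deriv ?_
      simp only [id, Function.comp_apply, Pi.neg_apply]
      field_simp
      ring
    have h4 : Integrable fun u => pdf u * (pdf (-u * a + 0) * -u) := by
      refine (hi.bdd_mul (c := 1) (f := fun u => pdf (-u * a + 0))
        (pdf_cont.comp (by fun_prop)).aestronglyMeasurable (ae_of_all _ fun u => ?_)).congr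
        (ae_of_all _ fun u => by ring)
      rw [Real.norm_eq_abs, abs_of_pos (pdf_pos _)]
      exact pdf_le_one _
    have h5 : Tendsto (fun u => pdf u * pdf (-u * a + 0) / (1 + a ^ 2)) atBot (𝓝 0) := by
      refine squeeze_zero' (g := fun u => exp u) (Eventually.of_forall fun u =>
        div_nonneg (mul_pos (pdf_pos _) (pdf_pos _)).le ha.le) ?_ tendsto_exp_atBot
      filter_upwards [eventually_le_atBot (-2 : ℝ)] with u hu
      have b1 : pdf u ≤ exp u := by
        have b2 : 1 ≤ √(2 * π) := one_le_sqrt.2 (by linarith [pi_gt_three])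
        refine (mul_le_of_le_one_left (exp_pos _).le (inv_le_one_of_one_le₀ b2)).trans
          (exp_le_exp.2 ?_)
        nlinarith
      refine (div_le_self (mul_pos (pdf_pos _) (pdf_pos _)).le (by nlinarith [sq_nonneg a])).trans ?_
      exact (mul_le_of_le_one_right (pdf_pos _).le (pdf_le_one _)).trans b1
    rw [integral_Iic_of_hasDerivAt_of_tendsto' (fun u _ => h3 u) h4.integrableOn h5]
    simp only [pdf, neg_zero, zero_mul, add_zero, ne_eq, OfNat.ofNat_ne_zero, not_false_eq_true,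
      zero_pow, zero_div, exp_zero, mul_one, hs, sub_zero]
    ring
  have h3 := const_of_deriv
    (f := fun a => (∫ u in Iic 0, pdf u * Phi (-u * a + 0)) - arctan a / (2 * π)) (fun a => by
      refine ((deriv_par (Iic 0) (p := fun u => -u) (q := fun _ => 0) continuous_neg
        continuous_const hi a).sub ((hasDerivAt_arctan a).div_const _)).congr_deriv ?_
      rw [h2, sub_self]) (ρ / √(1 - ρ ^ 2)) 0
  simp only [mul_zero, add_zero, Phi_zero, arctan_zero, zero_div, sub_zero,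
    integral_mul_const] at h3
  rw [← arcsin_eq_arctan ⟨h0, h1⟩, ← Phi.eq_1, Phi_zero] at h3
  have h4 : ∀ u, (0 - ρ * u) / √(1 - ρ ^ 2) = -u * (ρ / √(1 - ρ ^ 2)) := fun u => by ring
  simp only [quad, h4]
  linarith

theorem Phi_sub_le {t r : ℝ} (hr : 0 ≤ r) : Phi (t - r) ≤ exp (t * r) * Phi t := by
  have h1 := shift_Iic r one_pos t
  simp only [div_one, inv_one, mul_one] at h1
  rw [← h1, Phi, ← integral_const_mul]
  refine setIntegral_mono_on (pdf_int.comp_sub_right r).integrableOn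
    (pdf_int.const_mul _).integrableOn measurableSet_Iic fun u hu => ?_
  unfold pdf
  rw [mul_left_comm, ← exp_add]
  refine mul_le_mul_of_nonneg_left (exp_le_exp.2 ?_) (by positivity)
  nlinarith [mul_le_mul_of_nonneg_right (mem_Iic.1 hu) hr, sq_nonneg r]

theorem le_Phi_sub {t r m : ℝ} (hr : 0 ≤ r) (h : ∀ u ∈ Icc (t - r) t, u ^ 2 ≤ m ^ 2) :
    pdf m * r ≤ Phi t - Phi (t - r) := by
  rw [Phi, Phi, intervalIntegral.integral_Iic_sub_Iic pdf_int.integrableOn pdf_int.integrableOn]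
  have := intervalIntegral.integral_mono_on (μ := volume) (a := t - r) (b := t) (by linarith)
    (f := fun _ => pdf m) (by simp) (pdf_cont.intervalIntegrable _ _) fun u hu => pdf_mono (h u hu)
  simpa [mul_comm] using this

theorem quad_le (h1 : ρ ≤ 1) (hr : 0 < r) {t : ℝ} (ht : t ≤ 0) :
    quad ρ r (Iic t) t ≤ Phi t - (1 - Phi 1) * (Phi t - Phi (t - r)) := by
  have hi := int_mul_Phi (quad_cont (ρ := ρ) (r := r) t)
  have h2 := intervalIntegral.integral_Iic_sub_Iic (a := t - r) (b := t) hi.integrableOn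
    hi.integrableOn
  have h3 := setIntegral_mono_on (s := Iic (t - r)) hi.integrableOn pdf_int.integrableOn
    measurableSet_Iic fun u _ => mul_le_of_le_one_right (pdf_pos _).le (Phi_le_one _)
  have h4 := intervalIntegral.integral_mono_on (μ := volume) (a := t - r) (b := t) (by linarith)
    hi.intervalIntegrable (pdf_int.mul_const (Phi 1)).intervalIntegrable fun u hu =>
      mul_le_mul_of_nonneg_left (Phi_mono.monotone ((div_le_one hr).2 (by
        nlinarith [hu.1, hu.2, mul_nonneg (sub_nonneg.2 h1) (neg_nonneg.2 (hu.2.trans ht))])))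
        (pdf_pos _).le
  rw [intervalIntegral.integral_mul_const, ← intervalIntegral.integral_Iic_sub_Iic
    pdf_int.integrableOn pdf_int.integrableOn] at h4
  unfold quad
  unfold Phi at *
  linarith

/-- The conditional probability to stay below the quantile. -/
theorem exists_drop : ∃ c : ℝ, 0 < c ∧ c ≤ 1 ∧ ∀ ε L t : ℝ, 0 < ε → ε < 1 → 0 ≤ L → ε * L ≤ 1 → t ≤ 0 →
    Phi t = exp (-L) → quad (1 - ε) √(1 - (1 - ε) ^ 2) (Iic t) t ≤ (1 - c * √(ε * L)) * Phi t := by
  have hc1 : 0 < 1 - Phi 1 := sub_pos.2 (Phi_lt_one 1)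
  have hp := pdf_pos 2
  have hp1 := pdf_le_one 2
  refine ⟨(1 - Phi 1) * (pdf 2 / 3), by positivity, mul_le_one₀ (by linarith [Phi_nonneg 1])
    (by positivity) (by linarith), fun ε L t h0 h1 hL hεL ht hΦ => ?_⟩
  set r := √(1 - (1 - ε) ^ 2) with hr
  have hr1 : √ε ≤ r := sqrt_le_sqrt (by nlinarith)
  have hr2 : r ≤ 1 := sqrt_le_one.2 (by nlinarith [sq_nonneg (1 - ε)])
  have he : 0 < √ε := sqrt_pos.2 h0
  have hr0 : 0 < r := he.trans_le hr1
  have hy : √(ε * L) ≤ 1 := sqrt_le_one.2 hεL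
  have hy0 : 0 ≤ √(ε * L) := sqrt_nonneg _
  have h2 : L ≤ (1 - t) ^ 2 / 2 + 1 := by
    have a1 := le_Phi_sub (t := t) (r := 1) (m := 1 - t) zero_le_one fun u hu => by
      nlinarith [hu.1, hu.2]
    have a2 : √(2 * π) ≤ exp 1 := by
      rw [sqrt_le_iff]
      refine ⟨(exp_pos _).le, ?_⟩
      nlinarith [exp_one_gt_d9, pi_lt_d2]
    have a3 : exp (-1) ≤ (√(2 * π))⁻¹ := by
      rw [exp_neg]
      exact inv_anti₀ (by positivity) a2
    have a4 : exp (-1 + -(1 - t) ^ 2 / 2) ≤ exp (-L) := by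
      rw [exp_add, ← hΦ]
      have := mul_le_mul_of_nonneg_right a3 (exp_pos (-(1 - t) ^ 2 / 2)).le
      unfold pdf at a1
      linarith [Phi_nonneg (t - 1)]
    have := exp_le_exp.1 a4
    linarith
  have h3 : pdf 2 / 3 * √(ε * L) * Phi t ≤ Phi t - Phi (t - r) := by
    rw [sqrt_mul h0.le] at hy hy0 ⊢
    have hΦ0 := Phi_nonneg t
    rcases le_total (-1) t with h | h
    · have a1 := le_Phi_sub (t := t) (r := r) (m := 2) hr0.le fun u hu => by
        nlinarith [hu.1, hu.2]
      have a2 : √L ≤ 3 := sqrt_le_iff.2 ⟨by norm_num, by nlinarith⟩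
      have a3 : √ε * √L ≤ 3 * r := by nlinarith [sqrt_nonneg L]
      have a4 : pdf 2 / 3 * (√ε * √L) ≤ pdf 2 * r := by nlinarith
      have a5 := mul_le_of_le_one_right (by positivity : 0 ≤ pdf 2 / 3 * (√ε * √L)) (Phi_le_one t)
      linarith
    · have a1 := Phi_sub_le (t := t) hr0.le
      have a2 : √L ≤ 2 * -t := sqrt_le_iff.2 ⟨by linarith, by nlinarith⟩
      have a3 : √ε * √L ≤ 2 * (-t * r) := by nlinarith [sqrt_nonneg L]
      have a4 : exp (t * r) ≤ 1 - √ε * √L / 3 := by
        have b1 := add_one_le_exp (-(t * r))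
        have b2 : exp (t * r) * exp (-(t * r)) = 1 := by rw [← exp_add, add_neg_cancel, exp_zero]
        have b3 := exp_pos (t * r)
        have b4 : exp (t * r) * (1 + √ε * √L / 2) ≤ 1 := by nlinarith
        nlinarith
      have a5 := mul_le_mul_of_nonneg_right a4 hΦ0
      have a6 := mul_le_mul_of_nonneg_right hp1 (mul_nonneg hy0 hΦ0)
      nlinarith
  have h4 := quad_le (ρ := 1 - ε) (by linarith) hr0 ht
  nlinarith [mul_le_mul_of_nonneg_left h3 hc1.le]

end Quadrant

end Vale.Agent.N325M
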