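import Vale.Agent.N325M.Simple
import Vale.Agent.N325M.Gauss
import Mathlib.Analysis.SpecialFunctions.Trigonometric.Bounds

/-!
The hardness results in the form of the statement.
-/

namespace Vale.Agent.N325M

open Vale.Agent.Lib.PCP Vale.Agent.Lib.PolyTime Vale.Agent.P325 Vale.Agent.N325 Real
open ProbabilityTheory

theorem GapHard.mono {α : Type} {code : α → List Bool} {Y N Y' N' : α → Prop}
    (h : GapHard code Y N) (h1 : ∀ a, Y a → Y' a) (h2 : ∀ a, N a → N' a) : GapHard code Y' N' :=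
  let ⟨f, hf, f1, f2⟩ := h.2
  ⟨h.1.mono h1 h2, f, hf, fun x hx => h1 _ (f1 x hx), fun x hx => h2 _ (f2 x hx)⟩

theorem cnfCode_eq (φ : CNF) : cnfCode φ = enc φ := by
  rw [← codeList_eq, cnfCode, pair_eq_pr]
  rfl

theorem sat3_iff (φ : CNF) : Sat3 φ ↔ Satisfiable φ := by
  simp only [Sat3, Satisfiable, satClause, satLit, Bool.or_eq_true, beq_iff_eq, or_assoc]

theorem gapHard_of_hard {β γ α : Type} [Enc β] [Enc γ] {Q : Promise β} (h : Hard Q)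
    {code : α → List Bool} {Y N : α → Prop} (P : β → Prop) (conv : ∀ b, P b → α) (data : β → γ)
    (hd : PT ∅ data) (hc : ∀ b hb, code (conv b hb) = enc (data b))
    (hy : ∀ b, Q.yes b → P b) (hn : ∀ b, Q.no b → P b)
    (h1 : ∀ b hb, Q.yes b → Y (conv b hb)) (h2 : ∀ b hb, Q.no b → N (conv b hb)) :
    GapHard code Y N := by
  refine ⟨npHard_of_hard h P conv data hd hc hy hn h1 h2, ?_⟩
  obtain ⟨f, hf, f1, f2⟩ := h
  have h0 : ∀ φ : CNF, P (f φ) := fun φ => by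
    by_cases hx : Satisfiable φ
    · exact hy _ (f1 φ hx)
    · exact hn _ (f2 φ hx)
  obtain ⟨g, hg, hg'⟩ := hd.comp hf
  exact ⟨fun φ => conv (f φ) (h0 φ), exists_tm2_of_polyTimeFun _ _ _ g (polyTimeFun_iff.2 hg)
    fun φ => by rw [cnfCode_eq, hc, hg'], fun φ hφ => h1 _ _ (f1 φ ((sat3_iff φ).1 hφ)),
    fun φ hφ => h2 _ _ (f2 φ fun a => hφ ((sat3_iff φ).2 a))⟩

theorem exists_regP {η s : ℝ} (hη : 0 < η) (hs : 0 < s) : ∃ (Γ : Type) (_ : Group Γ) (_ : Fintype Γ)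
    (_ : DecidableEq Γ) (_ : Enc Γ) (_ : EncInj Γ), Hard (RegP Γ (1 - η) s) := by
  obtain ⟨k₀, hk⟩ := exists_nat_ge ((32 / min 1 s) ^ (16 / min 1 η))
  let _ : Enc (Multiplicative (Fin (k₀ + 1))) := ⟨fun g => enc g.toAdd⟩
  have : EncInj (Multiplicative (Fin (k₀ + 1))) :=
    ⟨fun _ _ h => Multiplicative.toAdd.injective (EncInj.inj (α := Fin (k₀ + 1)) h)⟩
  refine ⟨Multiplicative (Fin (k₀ + 1)), inferInstance, inferInstance, inferInstance,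
    inferInstance, inferInstance, Red.mono (hard_regP (ε := min 1 η) (δ := min 1 s) (by positivity)
      (min_le_left _ _) (by positivity) (min_le_left _ _) (hk.trans (by simp)))
    (fun I ⟨h, F, hF⟩ => ⟨h, F, le_trans ?_ hF⟩) fun I ⟨h, hF⟩ => ⟨h, fun F => (hF F).trans ?_⟩⟩
  · exact mul_le_mul_of_nonneg_right (by linarith [min_le_right 1 η]) (Nat.cast_nonneg _)
  · exact mul_le_mul_of_nonneg_right (min_le_right _ _) (Nat.cast_nonneg _)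

/-- The data for the reductions. -/
theorem exists_data (Ω : Type) [Fintype Ω] [DecidableEq Ω] [Nonempty Ω] {J : ℝ → ℝ → ℝ} {ρ : ℝ}
    (H : Bell J ρ) (h0 : 0 ≤ ρ) (h1 : ρ < 1) {μ : ℝ} (hμ : μ ∈ Set.Ioo (0 : ℝ) 1) {κ : ℝ}
    (hκ : 0 < κ) : ∃ (W : Type) (_ : Fintype W) (_ : Nonempty W) (ρ' : ℝ) (B : Bas Ω)
      (P : Cor Ω W ρ') (D : ℕ) (τ s : ℝ) (Γ : Type) (_ : Group Γ) (_ : Fintype Γ)
      (_ : DecidableEq Γ) (_ : Enc Γ) (_ : EncInj Γ), 0 ≤ ρ' ∧ ρ' ≤ ρ ∧ ρ - κ ≤ ρ' ∧ 0 < τ ∧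
      0 ≤ J μ μ + κ ∧ D * s / τ ≤ κ ∧ Stable B P Γ D τ μ (J μ μ + κ) ∧ Hard (RegP Γ (1 - κ) s) := by
  obtain ⟨B⟩ := exists_bas Ω
  obtain ⟨W, _, _, ρ', a0, a1, a2, ⟨P⟩⟩ := exists_cor Ω h0 h1.le hκ
  obtain ⟨D, τ, hτ, h⟩ := B.stablest P H a0 a1 (a1.trans_lt h1) hμ hκ
  obtain ⟨Γ, _, _, _, _, _, hΓ⟩ := exists_regP hκ (s := κ * τ / (D + 1)) (by positivity)
  refine ⟨W, inferInstance, inferInstance, ρ', B, P, D, τ, _, Γ, inferInstance, inferInstance,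
    inferInstance, inferInstance, inferInstance, a0, a1, a2, hτ, ?_, ?_, h Γ, hΓ⟩
  · linarith [H.ge μ hμ μ hμ, mul_pos hμ.1 hμ.1]
  · rw [div_le_iff₀ hτ, ← mul_div_assoc, div_le_iff₀ (by positivity)]
    nlinarith [mul_pos hκ hτ]

theorem lin_hard {J : ℝ → ℝ → ℝ} {ρ : ℝ} (H : Bell J ρ) (h0 : 0 ≤ ρ) (h1 : ρ < 1) {k : ℕ}
    (hk : 2 ≤ k) {c s : ℝ} (hc : c < ρ + (1 - ρ) / k) (hs : k * J (1 / k) (1 / k) < s) :
    UGHard k c s ∧ LinHard k c s := by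
  have hk' : (2 : ℝ) ≤ k := by exact_mod_cast hk
  have key : LinHard k c s := by
    intro A _ e
    classical
    let _ : Fintype A := Fintype.ofEquiv _ e.symm
    let _ : Enc A := ⟨fun g => enc (e g)⟩
    have : EncInj A := ⟨fun _ _ h => e.injective (EncInj.inj h)⟩
    have hA : Fintype.card A = k := by simpa using Fintype.card_congr e
    obtain ⟨κ, hκ, k1, k2⟩ : ∃ κ : ℝ, 0 < κ ∧ 3 * κ ≤ ρ + (1 - ρ) / k - c ∧
        2 * k * κ ≤ s - k * J (1 / k) (1 / k) := by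
      refine ⟨min ((ρ + (1 - ρ) / k - c) / 3) ((s - k * J (1 / k) (1 / k)) / (2 * k)),
        lt_min (by linarith) (div_pos (by linarith) (by linarith)), ?_, ?_⟩
      · linarith [min_le_left ((ρ + (1 - ρ) / k - c) / 3) ((s - k * J (1 / k) (1 / k)) / (2 * k))]
      · rw [← le_div_iff₀' (by linarith)]
        exact min_le_right _ _
    obtain ⟨W, _, _, ρ', B, P, D, τ, t, Γ, _, _, _, _, _, a0, a1, a2, a3, a4, a5, a6, a7⟩ :=
      exists_data A H h0 h1 (μ := 1 / k) ⟨by positivity, (div_lt_one (by linarith)).2 (by linarith)⟩ hκ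
    have h2 := a7.red (red_linP a0 (a1.trans h1.le) a3 a4 (by rw [hA]; exact a6) κ t)
    rw [hA] at h2
    refine gapHard_of_hard h2 InR (conv e) (cdata e) (PT_cdata e) (code_conv e) (fun _ h => h.1)
      (fun _ h => h.1) (fun I h ⟨_, _, hF⟩ => ⟨conv_linear e I h, le_trans ?_ (le_val_conv e I h hF)⟩)
      fun I h ⟨_, hF⟩ => ⟨conv_linear e I h, (val_conv_le e I h hF).trans (by nlinarith)⟩
    have b1 : (1 - ρ) / k ≤ (1 - ρ') / k := div_le_div_of_nonneg_right (by linarith) (by linarith)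
    have b2 : (1 - ρ') / k ≤ 1 - ρ' := div_le_self (by linarith) (by linarith)
    nlinarith
  have : NeZero k := ⟨by omega⟩
  exact ⟨(key (Multiplicative (Fin k)) Multiplicative.toAdd).mono (fun _ h => h.2) fun _ h => h.2,
    key⟩

theorem sharp_hard {ε δ : ℝ} (h0 : 0 < ε) (h1 : ε ≤ 1) {k : ℕ} (hk : 2 ≤ k)
    (h : (k : ℝ) ^ (-(ε / (2 - ε))) < δ) : UGHard k (1 - ε) δ ∧ LinHard k (1 - ε) δ := by
  have hk' : (0 : ℝ) < k := by exact_mod_cast (by omega : 0 < k)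
  refine lin_hard (bellPow (ρ := 1 - ε) (by linarith)) (by linarith) (by linarith) hk
    (lt_add_of_pos_right _ (div_pos (by linarith) hk')) (lt_of_eq_of_lt ?_ h)
  have h2 : (2 : ℝ) - ε ≠ 0 := by linarith
  rw [one_div, inv_rpow hk'.le, ← rpow_neg hk'.le, ← rpow_add hk']
  nth_rewrite 1 [← rpow_one (k : ℝ)]
  rw [← rpow_add hk', show 1 + (1 - ε) = 2 - ε by ring]
  congr 1
  field_simp
  ring

theorem ugc {ε δ : ℝ} (h0 : 0 < ε) (hδ : 0 < δ) (h1 : ε + δ < 1) :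
    ∃ k : ℕ, 2 ≤ k ∧ UGHard k (1 - ε) δ := by
  have h2 := (tendsto_rpow_neg_atTop (y := ε / (2 - ε)) (div_pos h0 (by linarith))).comp
    tendsto_natCast_atTop_atTop
  obtain ⟨k, hk, hk'⟩ := ((Filter.eventually_ge_atTop 2).and (h2.eventually (gt_mem_nhds hδ))).exists
  exact ⟨k, hk, (sharp_hard h0 (by linarith) hk hk').1⟩

theorem sq_sqrt_one_sub {ρ : ℝ} (h0 : 0 ≤ ρ) (h1 : ρ < 1) :
    0 < √(1 - ρ ^ 2) ∧ √(1 - ρ ^ 2) ^ 2 = 1 - ρ ^ 2 :=
  ⟨sqrt_pos.2 (by nlinarith), sq_sqrt (by nlinarith)⟩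

theorem gauss_hard {ρ t : ℝ} (h0 : 0 ≤ ρ) (h1 : ρ < 1) {k : ℕ} (hk : 2 ≤ k) (ht : Phi t = 1 / k)
    {c s : ℝ} (hc : c < ρ + (1 - ρ) / k) (hs : k * quad ρ √(1 - ρ ^ 2) (Set.Iic t) t < s) :
    UGHard k c s ∧ LinHard k c s :=
  lin_hard (bellGauss h0 (sq_sqrt_one_sub h0 h1).1 (sq_sqrt_one_sub h0 h1).2) h0 h1 hk hc
    (by rwa [← ht, quant_Phi])

theorem sqrt_hard : ∃ c : ℝ, 0 < c ∧ ∀ (ε : ℝ) (k : ℕ), 0 < ε → ε < 1 → 2 ≤ k → ε * log k ≤ 1 →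
    UGHard k (1 - ε) (1 - c * √(ε * log k)) ∧ LinHard k (1 - ε) (1 - c * √(ε * log k)) := by
  obtain ⟨c, hc, -, h⟩ := exists_drop
  refine ⟨c / 2, half_pos hc, fun ε k h0 h1 hk h2 => ?_⟩
  have hk' : (2 : ℝ) ≤ k := by exact_mod_cast hk
  have hL : 0 < log k := log_pos (by linarith)
  have ht := Phi_quant (x := 1 / k) ⟨by positivity, (div_lt_one (by linarith)).2 (by linarith)⟩
  have h3 := h ε (log k) _ h0 h1 hL.le h2 (Phi_mono.le_iff_le.1 (by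
    rw [ht, Phi_zero]
    exact one_div_le_one_div_of_le two_pos hk')) (by rw [ht, exp_neg, exp_log (by linarith), one_div])
  refine gauss_hard (ρ := 1 - ε) (by linarith) (by linarith) hk ht
    (lt_add_of_pos_right _ (div_pos (by linarith) (by linarith))) ?_
  rw [ht, mul_one_div, le_div_iff₀' (by linarith)] at h3
  linarith [mul_pos hc (sqrt_pos.2 (mul_pos h0 hL))]

theorem hard_cutP {θ κ : ℝ} (h0 : π / 2 ≤ θ) (h1 : θ < π) (hκ : 0 < κ) :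
    Hard (CutP ((1 - cos θ) / 2 - 3 * κ) (θ / π + 4 * κ)) := by
  have c0 : 0 ≤ -cos θ := neg_nonneg.2 (cos_nonpos_of_pi_div_two_le_of_le h0 (by linarith [pi_pos]))
  have c1 : -cos θ < 1 := by
    have := cos_lt_cos_of_nonneg_of_le_pi (by linarith [pi_pos]) le_rfl h1
    rw [cos_pi] at this
    linarith
  obtain ⟨W, _, _, ρ', B, P, D, τ, t, Γ, _, _, _, _, _, a0, a1, a2, a3, a4, a5, a6, a7⟩ :=
    exists_data Bool (bellGauss c0 (sq_sqrt_one_sub c0 c1).1 (sq_sqrt_one_sub c0 c1).2) c0 c1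
      (μ := 1 / 2) ⟨by norm_num, by norm_num⟩ hκ
  refine Red.mono (a7.red (red_cutP a0 a3 a4 a6 κ t))
    (fun G ⟨h, f, hf⟩ => ⟨h, f, le_trans (mul_le_mul_of_nonneg_right ?_ (Nat.cast_nonneg _)) hf⟩)
    fun G ⟨h, hf⟩ => ⟨h, fun f h' => (hf f h').trans
      (mul_le_mul_of_nonneg_right ?_ (Nat.cast_nonneg _))⟩
  · nlinarith
  · have h2 : arcsin (-cos θ) = θ - π / 2 := by
      rw [← sin_sub_pi_div_two, arcsin_sin (by linarith [pi_pos]) (by linarith)]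
    have h3 : (θ - π / 2) / (2 * π) = θ / π / 2 - 1 / 4 := by
      field_simp
      ring
    rw [← Phi_zero, quant_Phi, sheppard (by linarith) c1, h2, h3]
    linarith

theorem exists_sim {θ ε : ℝ} (h0 : π / 2 ≤ θ) (h1 : θ < π) (hε : 0 < ε) :
    ∃ (Q : Promise (Un × List (ℕ × ℕ))) (c k : ℕ), Hard Q ∧ ∀ G,
      (Q.yes G → 0 < simE c k G ∧ (simG c k G).2.edgeSet.ncard = simE c k G ∧
        ((1 - cos θ) / 2 - ε) * simE c k G ≤ maxCut (simG c k G)) ∧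
      (Q.no G → 0 < simE c k G ∧ (simG c k G).2.edgeSet.ncard = simE c k G ∧
        maxCut (simG c k G) ≤ (θ / π + ε) * simE c k G) := by
  obtain ⟨c, hc⟩ := exists_nat_ge (max 2 ((2 * (1 + ε) + 2) / (ε / 2)))
  have c2 : (2 : ℝ) ≤ c := (le_max_left _ _).trans hc
  have c3 := (le_max_right _ _).trans hc
  have t0 : 0 ≤ θ / π := div_nonneg (by linarith [pi_pos]) pi_pos.le
  have t1 : θ / π ≤ 1 := div_le_one_of_le₀ h1.le pi_pos.le
  refine ⟨_, c, c, hard_cutP h0 h1 (κ := ε / 8) (by positivity), fun G => ?_⟩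
  have h := sim_spec (c := c) (k := c) (by exact_mod_cast c2) (by exact_mod_cast c2.trans_lt' two_pos)
    (a := (1 - cos θ) / 2 - 3 * (ε / 8)) (s := θ / π + 4 * (ε / 8)) (by positivity) G
  refine ⟨fun a => ⟨(h.1 a).1, (h.1 a).2.1, le_trans (mul_le_mul_of_nonneg_right (by linarith)
    (Nat.cast_nonneg _)) (h.1 a).2.2⟩, fun a => ⟨(h.2 a).1, (h.2 a).2.1, (h.2 a).2.2.trans
      (mul_le_mul_of_nonneg_right ?_ (Nat.cast_nonneg _))⟩⟩
  have h2 : (2 * (θ / π + 4 * (ε / 8)) + 2) / c ≤ ε / 2 := by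
    rw [div_le_iff₀ (by positivity)] at c3 ⊢
    linarith
  rw [add_div] at h2
  linarith

theorem cut_hard {θ ε : ℝ} (h0 : π / 2 ≤ θ) (h1 : θ < π) (hε : 0 < ε) : GapHard graphCode
    (fun G => 0 < G.2.edgeSet.ncard ∧ ((1 - cos θ) / 2 - ε) * G.2.edgeSet.ncard ≤ maxCut G)
    fun G => 0 < G.2.edgeSet.ncard ∧ maxCut G ≤ (θ / π + ε) * G.2.edgeSet.ncard := by
  obtain ⟨Q, c, k, hQ, h⟩ := exists_sim h0 h1 hε
  refine gapHard_of_hard hQ (fun _ => True) (fun G _ => simG c k G) (simD c k) (PT_simD c k)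
    (fun G _ => code_simG G) (fun _ _ => trivial) (fun _ _ => trivial) (fun G _ a => ?_)
    fun G _ a => ?_
  · rw [((h G).1 a).2.1]
    exact ⟨((h G).1 a).1, ((h G).1 a).2.2⟩
  · rw [((h G).2 a).2.1]
    exact ⟨((h G).2 a).1, ((h G).2 a).2.2⟩

theorem exists_angle {α : ℝ}
    (h : sInf ((fun θ => 2 * θ / (π * (1 - cos θ))) '' Set.Ioc 0 π) < α) :
    ∃ θ, π / 2 ≤ θ ∧ θ < π ∧ θ / π < α * ((1 - cos θ) / 2) := by
  obtain ⟨_, ⟨θ, hθ, rfl⟩, h⟩ := exists_lt_of_csInf_lt ((Set.nonempty_Ioc.2 pi_pos).image _) h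
  have c1 : 0 < 1 - cos θ := by
    have := cos_lt_cos_of_nonneg_of_le_pi le_rfl hθ.2 hθ.1
    rw [cos_zero] at this
    linarith
  have h1 : θ / π < α * ((1 - cos θ) / 2) := by
    rw [div_lt_iff₀ (mul_pos pi_pos c1)] at h
    rw [div_lt_iff₀ pi_pos]
    linarith
  by_cases h2 : π / 2 ≤ θ ∧ θ < π
  · exact ⟨θ, h2.1, h2.2, h1⟩
  have h3 : (1 - cos θ) / 2 ≤ θ / π := by
    rcases not_and_or.1 h2 with a | a
    · have b := one_sub_mul_le_cos hθ.1.le (not_le.1 a).le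
      rw [div_mul_comm] at b
      linarith
    · rw [le_antisymm hθ.2 (not_lt.1 a), cos_pi, div_self pi_pos.ne']
      norm_num
  have h4 : 1 < α := by nlinarith
  refine ⟨π - π / 3, by linarith [pi_pos], by linarith [pi_pos], ?_⟩
  have h5 : (π - π / 3) / π = 2 / 3 := by
    field_simp
    ring
  rw [cos_pi_sub, cos_pi_div_three, h5]
  linarith

theorem apx_hard {α : ℝ} (h : sInf ((fun θ => 2 * θ / (π * (1 - cos θ))) '' Set.Ioc 0 π) < α)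
    {A : List Bool → List Bool} (hA : PolyTime A)
    (ha : ∀ G, ∃ m : ℕ, A (graphCode G) = m.bits ∧ α * maxCut G ≤ m ∧ m ≤ maxCut G) :
    ∀ L ∈ NP, ∃ D, PolyTime D ∧ ∀ x, x ∈ L ↔ D x = [true] := by
  intro L hL
  obtain ⟨θ, h0, h1, h2⟩ := exists_angle h
  have t0 : 0 < θ / π := div_pos (by linarith [pi_pos]) pi_pos
  have hα : 0 < α := by
    by_contra a
    nlinarith [cos_le_one θ]
  obtain ⟨ε, hε, h3⟩ : ∃ ε : ℝ, 0 < ε ∧ θ / π + ε < α * ((1 - cos θ) / 2 - ε) := by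
    refine ⟨(α * ((1 - cos θ) / 2) - θ / π) / (2 * (1 + α)), div_pos (by linarith) (by linarith), ?_⟩
    have := mul_div_cancel₀ (α * ((1 - cos θ) / 2) - θ / π) (show 2 * (1 + α) ≠ 0 by linarith)
    linarith
  obtain ⟨q, q1, q2⟩ := exists_rat_btwn h3
  have q0 : (0 : ℝ) < q.den := by exact_mod_cast q.den_pos
  have q3 : (q.num.toNat : ℝ) = q * q.den := by
    have a1 : (0 : ℚ) ≤ q := by exact_mod_cast (by linarith : (0 : ℝ) ≤ q)
    have a2 : ((q.num.toNat : ℤ) : ℝ) = q.num := by rw [Int.toNat_of_nonneg (Rat.num_nonneg.2 a1)]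
    rw [Int.cast_natCast] at a2
    rw [a2]
    exact_mod_cast (Rat.mul_den_eq_num q).symm
  obtain ⟨Q, c, k, hQ, hs⟩ := exists_sim h0 h1 hε
  obtain ⟨f, hf, f1, f2⟩ := (cookLevin L hL).trans hQ
  have p1 : PT ∅ fun x : Raw => Raw.mk (A x.w) := ⟨_, polyTime_iff.1 hA, fun _ => rfl⟩
  have p2 : PT ∅ fun G => Raw.mk (enc (simD c k G)) := PT_simD c k
  obtain ⟨g, hg, hg'⟩ := (PT.lt ((PT.const q.num.toNat).mul (PT_simE c k))
    ((PT.const q.den).mul (PT.rawVal (p1.comp p2)))).comp hf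
  refine ⟨g, polyTime_iff.2 hg, fun x => ?_⟩
  obtain ⟨m, m1, m2, m3⟩ := ha (simG c k (f ⟨x⟩))
  have e : g x = [decide (q.num.toNat * simE c k (f ⟨x⟩) < q.den * m)] := by
    rw [← val_bits m, ← m1, code_simG]
    exact hg' ⟨x⟩
  rw [e, List.singleton_inj, decide_eq_true_iff, ← Nat.cast_lt (α := ℝ), Nat.cast_mul, Nat.cast_mul,
    q3, mul_right_comm, mul_comm, mul_lt_mul_iff_right₀ q0]
  refine ⟨fun hx => ?_, fun hm => by_contra fun hx => ?_⟩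
  · obtain ⟨a1, -, a2⟩ := (hs _).1 (f1 ⟨x⟩ hx)
    have a3 := mul_lt_mul_of_pos_right q2 (Nat.cast_pos.2 a1)
    linarith [mul_le_mul_of_nonneg_left a2 hα.le]
  · obtain ⟨a1, -, a2⟩ := (hs _).2 (f2 ⟨x⟩ hx)
    have a3 := mul_lt_mul_of_pos_right q1 (Nat.cast_pos.2 a1)
    linarith [(Nat.cast_le (α := ℝ)).2 m3]

end Vale.Agent.N325M
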