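import Vale.Agent.N325.Defs
import Mathlib.Data.Set.Card

/-!
Hardness in both forms (from every language in NP, and from 3-SAT), and cuts of simple graphs.
-/

namespace Vale.Agent.N325M

open Vale.Agent.P325 Vale.Agent.N325

/-- Formulas in 3-CNF: lists of triples of literals; a literal is a variable and the value which
makes it true. -/
abbrev CNF3 : Type := List ((ℕ × Bool) × (ℕ × Bool) × ℕ × Bool)

/-- Satisfiable formulas. -/
def Sat3 (φ : CNF3) : Prop :=
  ∃ σ : ℕ → Bool, ∀ c ∈ φ, σ c.1.1 = c.1.2 ∨ σ c.2.1.1 = c.2.1.2 ∨ σ c.2.2.1 = c.2.2.2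

/-- The binary code of a formula. -/
def cnfCode (φ : CNF3) : List Bool :=
  codeList (φ.map fun c => pair (pair c.1.1.bits [c.1.2])
    (pair (pair c.2.1.1.bits [c.2.1.2]) (pair c.2.2.1.bits [c.2.2.2])))

/-- Every language in NP reduces to the promise problem, and 3-SAT reduces to it by a polynomial
time machine which reads codes of formulas and writes codes of instances. -/
def GapHard {α : Type} (code : α → List Bool) (Y N : α → Prop) : Prop :=
  NPHard code Y N ∧ ∃ f : CNF3 → α,
    (∃ M : Turing.TM2ComputableInPolyTime cnfCode code f, ∀ k, Finite (M.tm.Γ k)) ∧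
    (∀ φ, Sat3 φ → Y (f φ)) ∧ ∀ φ, ¬ Sat3 φ → N (f φ)

/-- The problem `UG_k(c, s)` is hard. -/
def UGHard (k : ℕ) (c s : ℝ) : Prop :=
  GapHard UG.code (fun G : UG k => c ≤ G.val) fun G => G.val ≤ s

/-- The problem `UG_k(c, s)` is hard on systems of equations `a v = γ * a u` over every group of
order `k`. -/
def LinHard (k : ℕ) (c s : ℝ) : Prop :=
  ∀ (Γ : Type) [Group Γ] (e : Γ ≃ Fin k),
    GapHard UG.code (fun G : UG k => Linear e G ∧ c ≤ G.val) fun G => Linear e G ∧ G.val ≤ s

/-- The largest number of edges between a set of vertices and its complement. -/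
noncomputable def maxCut (G : Σ n : ℕ, SimpleGraph (Fin n)) : ℕ :=
  ⨆ S : Set (Fin G.1), {p : Fin G.1 × Fin G.1 | p.1 ∈ S ∧ p.2 ∉ S ∧ G.2.Adj p.1 p.2}.ncard

end Vale.Agent.N325M
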