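import Vale.Agent.P325.Cover
import Mathlib.Analysis.InnerProductSpace.PiL2

/-!
Fourier expansion on a product of copies of a finite set, correlated pairs, and the inequality of
Bonami.
-/

namespace Vale.Agent.N325M

open Finset Vale.Agent.P325
open scoped BigOperators

/-- An orthonormal basis of the functions on `Ω` whose member `o` is the constant one. -/
structure Bas (Ω : Type) [Fintype Ω] [DecidableEq Ω] where
  o : Ω
  e : Ω → Ω → ℝ
  e_o : ∀ ω, e o ω = 1
  orth : ∀ a b, 𝔼 ω, e a ω * e b ω = if a = b then 1 else 0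
  comp : ∀ ω ω', ∑ a, e a ω * e a ω' = if ω = ω' then (Fintype.card Ω : ℝ) else 0

theorem exists_bas (Ω : Type) [Fintype Ω] [DecidableEq Ω] [Nonempty Ω] : Nonempty (Bas Ω) := by
  obtain ⟨o⟩ := ‹Nonempty Ω›
  have hq : (0 : ℝ) < Fintype.card Ω := by exact_mod_cast Fintype.card_pos
  have hs : 0 < √(Fintype.card Ω : ℝ) := Real.sqrt_pos.2 hq
  have hss : √(Fintype.card Ω : ℝ) * √(Fintype.card Ω : ℝ) = Fintype.card Ω :=
    Real.mul_self_sqrt hq.le
  let v : Ω → EuclideanSpace ℝ Ω := fun _ => WithLp.toLp 2 fun _ => (√(Fintype.card Ω : ℝ))⁻¹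
  have hv : Orthonormal ℝ (({o} : Set Ω).domRestrict v) := by
    rw [orthonormal_iff_ite]
    intro i j
    rw [if_pos (Subsingleton.elim i j)]
    simp only [Set.domRestrict_apply, v, PiLp.inner_apply, RCLike.inner_apply, conj_trivial,
      sum_const, card_univ, nsmul_eq_mul]
    field_simp
    rw [sq, hss]
  obtain ⟨b, hb⟩ := hv.exists_orthonormalBasis_extension_of_card_eq (by simp)
  have h1 : ∀ a a', ∑ ω, b a ω * b a' ω = if a = a' then 1 else 0 := by
    intro a a'
    rw [← orthonormal_iff_ite.1 b.orthonormal a a']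
    simp only [PiLp.inner_apply, RCLike.inner_apply, conj_trivial]
    exact sum_congr rfl fun _ _ => mul_comm _ _
  have h2 : ∀ ω ω', ∑ a, b a ω * b a ω' = if ω = ω' then 1 else 0 := by
    intro ω ω'
    have := b.sum_inner_mul_inner (EuclideanSpace.single ω (1 : ℝ)) (EuclideanSpace.single ω' 1)
    simp only [EuclideanSpace.inner_single_left, EuclideanSpace.inner_single_right,
      conj_trivial, one_mul, map_one] at this
    rw [this]
    simp [PiLp.single_apply, eq_comm]
  refine ⟨⟨o, fun a ω => √(Fintype.card Ω : ℝ) * b a ω, fun ω => ?_, fun a a' => ?_,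
    fun ω ω' => ?_⟩⟩
  · rw [hb o rfl]
    simp only [v]
    field_simp
  · rw [Fintype.expect_eq_sum_div_card, ← h1, div_eq_iff hq.ne', sum_mul]
    refine sum_congr rfl fun ω _ => ?_
    linear_combination (b a ω * b a' ω) * hss
  · have : ∑ a, √(Fintype.card Ω : ℝ) * b a ω * (√(Fintype.card Ω : ℝ) * b a ω') =
        Fintype.card Ω * ∑ a, b a ω * b a ω' := by
      rw [mul_sum]
      refine sum_congr rfl fun a _ => ?_
      linear_combination (b a ω * b a ω') * hss
    rw [this, h2]
    split_ifs <;> simp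

theorem expect_prod {ι W : Type} [Fintype ι] [DecidableEq ι] [Fintype W] (φ : ι → W → ℝ) :
    𝔼 x : ι → W, ∏ i, φ i (x i) = ∏ i, 𝔼 w, φ i w := by
  simp only [Fintype.expect_eq_sum_div_card]
  rw [prod_div_distrib, Fintype.prod_sum]
  simp

/-- A pair of uniform random elements of `Ω`, equal with probability `ρ` and independent
otherwise. -/
structure Cor (Ω W : Type) [Fintype Ω] [Fintype W] (ρ : ℝ) where
  X : W → Ω
  Y : W → Ω
  law : ∀ φ ψ : Ω → ℝ, 𝔼 w, φ (X w) * ψ (Y w) =
    ρ * (𝔼 ω, φ ω * ψ ω) + (1 - ρ) * ((𝔼 ω, φ ω) * 𝔼 ω, ψ ω)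

variable {Ω : Type} [Fintype Ω] [DecidableEq Ω] (B : Bas Ω)
variable {ι : Type} [Fintype ι] [DecidableEq ι]

namespace Bas

include B in
theorem nonempty : Nonempty Ω := ⟨B.o⟩

theorem expect_e (a : Ω) : 𝔼 ω, B.e a ω = if a = B.o then 1 else 0 := by
  simpa [B.e_o] using B.orth a B.o

/-- The product basis. -/
def E (α x : ι → Ω) : ℝ := ∏ i, B.e (α i) (x i)

/-- The degree. -/
def deg (α : ι → Ω) : ℕ := (univ.filter fun i => α i ≠ B.o).card

/-- The function with given coefficients. -/
noncomputable def syn (c : (ι → Ω) → ℝ) (x : ι → Ω) : ℝ := ∑ α, c α * B.E α x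

/-- The coefficients of a function. -/
noncomputable def hat (f : (ι → Ω) → ℝ) (α : ι → Ω) : ℝ := 𝔼 x, f x * B.E α x

/-- The index of the constant function. -/
def z : ι → Ω := fun _ => B.o

omit [DecidableEq ι] in
theorem E_z (x : ι → Ω) : B.E B.z x = 1 := by simp [E, z, B.e_o]

omit [DecidableEq ι] in
theorem deg_z : B.deg (B.z : ι → Ω) = 0 := by simp [deg, z]

omit [DecidableEq ι] in
theorem deg_eq_zero {α : ι → Ω} : B.deg α = 0 ↔ α = B.z := by
  simp [deg, funext_iff, z]

theorem orthE (α β : ι → Ω) : 𝔼 x, B.E α x * B.E β x = if α = β then 1 else 0 := by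
  simp only [E, ← prod_mul_distrib]
  rw [expect_prod fun i ω => B.e (α i) ω * B.e (β i) ω]
  simp only [B.orth]
  rw [Fintype.prod_boole]
  simp [funext_iff]

theorem plancherel (c d : (ι → Ω) → ℝ) : 𝔼 x, B.syn c x * B.syn d x = ∑ α, c α * d α := by
  have : ∀ x, B.syn c x * B.syn d x = ∑ α, ∑ β, c α * d β * (B.E α x * B.E β x) := fun x => by
    rw [syn, syn, sum_mul_sum]
    exact sum_congr rfl fun _ _ => sum_congr rfl fun _ _ => by ring
  simp only [this, expect_sum_comm, ← mul_expect, orthE]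
  simp

theorem parseval (c : (ι → Ω) → ℝ) : 𝔼 x, B.syn c x ^ 2 = ∑ α, c α ^ 2 := by
  simpa only [sq] using B.plancherel c c

theorem syn_hat (f : (ι → Ω) → ℝ) (x : ι → Ω) : B.syn (B.hat f) x = f x := by
  have := B.nonempty
  have h1 : ∀ y, ∑ α : ι → Ω, B.E α y * B.E α x =
      if y = x then (Fintype.card (ι → Ω) : ℝ) else 0 := by
    intro y
    simp only [E, ← prod_mul_distrib]
    rw [← Fintype.prod_sum fun i a => B.e a (y i) * B.e a (x i)]
    simp only [B.comp]
    split_ifs with h
    · simp [h]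
    · obtain ⟨i, hi⟩ := Function.ne_iff.1 h
      exact prod_eq_zero (mem_univ i) (if_neg hi)
  simp only [syn, hat, expect_mul]
  rw [← expect_sum_comm]
  simp only [mul_assoc, ← mul_sum, h1]
  rw [Fintype.expect_eq_sum_div_card]
  have : (Fintype.card (ι → Ω) : ℝ) ≠ 0 := by exact_mod_cast Fintype.card_ne_zero
  simp only [mul_ite, mul_zero, sum_ite_eq', mem_univ, if_true]
  field_simp

theorem hat_z (f : (ι → Ω) → ℝ) : B.hat f B.z = 𝔼 x, f x := by simp [hat, E_z]

theorem expect_syn (c : (ι → Ω) → ℝ) : 𝔼 x, B.syn c x = c B.z := by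
  have := B.plancherel c fun α => if α = B.z then 1 else 0
  simpa [syn, E_z] using this

theorem sum_hat_sq (f : (ι → Ω) → ℝ) : ∑ α, B.hat f α ^ 2 = 𝔼 x, f x ^ 2 := by
  simp only [← B.parseval, syn_hat]

section Cor

variable {W : Type} [Fintype W] {ρ : ℝ} (P : Cor Ω W ρ)

theorem corE (α β : ι → Ω) : 𝔼 w : ι → W, B.E α (P.X ∘ w) * B.E β (P.Y ∘ w) =
    if α = β then ρ ^ B.deg α else 0 := by
  simp only [E, ← prod_mul_distrib, Function.comp_apply]
  rw [expect_prod fun i w => B.e (α i) (P.X w) * B.e (β i) (P.Y w)]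
  simp only [P.law, B.orth, B.expect_e]
  split_ifs with h
  · subst h
    rw [deg, ← prod_const, prod_filter]
    refine prod_congr rfl fun i _ => ?_
    by_cases hi : α i = B.o <;> simp [hi]
  · obtain ⟨i, hi⟩ := Function.ne_iff.1 h
    refine prod_eq_zero (mem_univ i) ?_
    by_cases h1 : α i = B.o
    · have : β i ≠ B.o := fun h2 => hi (h1.trans h2.symm)
      simp [hi, this]
    · simp [hi, h1]

theorem cor_syn (c d : (ι → Ω) → ℝ) : 𝔼 w : ι → W, B.syn c (P.X ∘ w) * B.syn d (P.Y ∘ w) =
    ∑ α, ρ ^ B.deg α * (c α * d α) := by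
  have : ∀ w : ι → W, B.syn c (P.X ∘ w) * B.syn d (P.Y ∘ w) =
      ∑ α, ∑ β, c α * d β * (B.E α (P.X ∘ w) * B.E β (P.Y ∘ w)) := fun w => by
    rw [syn, syn, sum_mul_sum]
    exact sum_congr rfl fun _ _ => sum_congr rfl fun _ _ => by ring
  simp only [this, expect_sum_comm, ← mul_expect, corE]
  simp [mul_comm]

include B in
theorem marg_X (f : (ι → Ω) → ℝ) : 𝔼 w : ι → W, f (P.X ∘ w) = 𝔼 x, f x := by
  have := B.cor_syn P (B.hat f) fun α => if α = B.z then 1 else 0
  simp only [syn_hat] at this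
  simpa [syn, E_z, deg_z, hat_z] using this

include B in
theorem marg_Y (f : (ι → Ω) → ℝ) : 𝔼 w : ι → W, f (P.Y ∘ w) = 𝔼 x, f x := by
  have := B.cor_syn P (fun α => if α = B.z then 1 else 0) (B.hat f)
  simp only [syn_hat] at this
  simpa [syn, E_z, deg_z, hat_z] using this

end Cor

theorem E_update (α x : ι → Ω) (i : ι) (b : Ω) :
    B.E α (Function.update x i b) = B.e (α i) b * ∏ j ∈ univ.erase i, B.e (α j) (x j) := by
  rw [E, ← mul_prod_erase univ _ (mem_univ i), Function.update_self]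
  congr 1
  exact prod_congr rfl fun j hj => by rw [Function.update_of_ne (ne_of_mem_erase hj)]

/-- Averaging over one coordinate. -/
theorem avg_syn (c : (ι → Ω) → ℝ) (x : ι → Ω) (i : ι) :
    𝔼 b, B.syn c (Function.update x i b) = B.syn (fun α => if α i = B.o then c α else 0) x := by
  simp only [syn, expect_sum_comm, ← mul_expect, E_update, ← expect_mul, expect_e]
  refine sum_congr rfl fun α _ => ?_
  split_ifs with h
  · rw [E, ← mul_prod_erase univ _ (mem_univ i), h, B.e_o]
  · simp

theorem syn_update {c : (ι → Ω) → ℝ} {i : ι} (h : ∀ α, α i ≠ B.o → c α = 0) (x : ι → Ω) (b : Ω) :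
    B.syn c (Function.update x i b) = B.syn c x := by
  refine sum_congr rfl fun α _ => ?_
  by_cases e : α i = B.o
  · rw [E_update, E, ← mul_prod_erase univ _ (mem_univ i), e, B.e_o, B.e_o]
  · rw [h α e, zero_mul, zero_mul]

theorem syn_add (c d : (ι → Ω) → ℝ) (x : ι → Ω) :
    B.syn (fun α => c α + d α) x = B.syn c x + B.syn d x := by
  simp only [syn, add_mul, sum_add_distrib]

theorem syn_smul (r : ℝ) (c : (ι → Ω) → ℝ) (x : ι → Ω) :
    B.syn (fun α => r * c α) x = r * B.syn c x := by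
  simp only [syn, mul_sum, mul_assoc]

theorem syn_split (c : (ι → Ω) → ℝ) (p : (ι → Ω) → Prop) [DecidablePred p] (x : ι → Ω) :
    B.syn c x = B.syn (fun α => if p α then c α else 0) x +
      B.syn (fun α => if p α then 0 else c α) x := by
  rw [← syn_add]
  congr 1
  funext α
  split_ifs <;> simp

theorem syn_const (r : ℝ) (x : ι → Ω) : B.syn (fun α => if α = B.z then r else 0) x = r := by
  simp [syn, E_z]

/-- The coefficients of the part with value `a` at the coordinate `i`. -/
def part (c : (ι → Ω) → ℝ) (i : ι) (a : Ω) (α : ι → Ω) : ℝ :=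
  if α i = B.o then c (Function.update α i a) else 0

theorem sum_part (i : ι) (g : (ι → Ω) → ℝ) :
    ∑ α, g α = ∑ a, ∑ α : ι → Ω, if α i = B.o then g (Function.update α i a) else 0 := by
  have h1 : ∀ a, (∑ α : ι → Ω, if α i = B.o then g (Function.update α i a) else 0) =
      ∑ α : ι → Ω, if α i = a then g α else 0 := by
    intro a
    rw [← sum_filter, ← sum_filter]
    refine sum_bij' (fun α _ => Function.update α i a) (fun α _ => Function.update α i B.o)
      (by simp) (by simp) (fun α h => ?_) (fun α h => ?_) fun _ _ => rfl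
    · rw [Function.update_idem, ← (mem_filter.1 h).2, Function.update_eq_self]
    · rw [Function.update_idem, ← (mem_filter.1 h).2, Function.update_eq_self]
  simp only [h1]
  rw [sum_comm]
  simp

theorem syn_eq_part (c : (ι → Ω) → ℝ) (i : ι) (x : ι → Ω) :
    B.syn c x = ∑ a, B.e a (x i) * B.syn (B.part c i a) x := by
  rw [syn, B.sum_part i]
  refine sum_congr rfl fun a _ => ?_
  rw [syn, mul_sum]
  refine sum_congr rfl fun α _ => ?_
  unfold part
  split_ifs with h
  · have : B.E (Function.update α i a) x = B.e a (x i) * B.E α x := by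
      rw [E, E, ← mul_prod_erase univ _ (mem_univ i), ← mul_prod_erase univ _ (mem_univ i),
        Function.update_self, h, B.e_o, one_mul]
      congr 1
      exact prod_congr rfl fun j hj => by rw [Function.update_of_ne (ne_of_mem_erase hj)]
    rw [this]
    ring
  · simp

theorem deg_update {α : ι → Ω} {i : ι} (h : α i = B.o) {a : Ω} (ha : a ≠ B.o) :
    B.deg (Function.update α i a) = B.deg α + 1 := by
  have : (univ.filter fun j => Function.update α i a j ≠ B.o) =
      insert i (univ.filter fun j => α j ≠ B.o) := by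
    ext j
    by_cases e : j = i
    · subst e
      simp [ha]
    · simp [e]
  rw [deg, this, card_insert_of_notMem (by simp [h]), deg]

/-- The fourth moment in one variable. -/
theorem one_var (g₀ : ℝ) (g : Ω → ℝ) :
    𝔼 ω, (g₀ + ∑ a ∈ univ.erase B.o, B.e a ω * g a) ^ 4 ≤ g₀ ^ 4 +
      8 * (g₀ ^ 2 * ∑ a ∈ univ.erase B.o, g a ^ 2) +
      3 * Fintype.card Ω * (∑ a ∈ univ.erase B.o, g a ^ 2) ^ 2 := by
  have := B.nonempty
  set G := ∑ a ∈ univ.erase B.o, g a ^ 2 with hG
  set u : Ω → ℝ := fun ω => ∑ a ∈ univ.erase B.o, B.e a ω * g a with hu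
  have hG0 : 0 ≤ G := sum_nonneg fun _ _ => sq_nonneg _
  have h1 : 𝔼 ω, u ω = 0 := by
    simp only [hu, expect_sum_comm, ← expect_mul, expect_e]
    exact sum_eq_zero fun a ha => by rw [if_neg (ne_of_mem_erase ha), zero_mul]
  have h2 : 𝔼 ω, u ω ^ 2 = G := by
    have : ∀ ω, u ω ^ 2 = ∑ a ∈ univ.erase B.o, ∑ b ∈ univ.erase B.o,
        g a * g b * (B.e a ω * B.e b ω) := fun ω => by
      rw [sq, hu, sum_mul_sum]
      exact sum_congr rfl fun _ _ => sum_congr rfl fun _ _ => by ring
    simp only [this, expect_sum_comm, ← mul_expect, B.orth]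
    refine sum_congr rfl fun a ha => ?_
    simp only [mul_ite, mul_one, mul_zero, sum_ite_eq, ha, if_true, sq]
  have h3 : ∀ ω, u ω ^ 2 ≤ Fintype.card Ω * G := fun ω => by
    rw [← h2, Fintype.card_mul_expect]
    exact single_le_sum (f := fun ω => u ω ^ 2) (fun _ _ => sq_nonneg _) (mem_univ ω)
  have h4 : ∀ ω, (g₀ + u ω) ^ 4 ≤ g₀ ^ 4 + 4 * g₀ ^ 3 * u ω +
      (8 * g₀ ^ 2 + 3 * Fintype.card Ω * G) * u ω ^ 2 := fun ω => by
    have a1 := mul_le_mul_of_nonneg_right (h3 ω) (sq_nonneg (u ω))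
    nlinarith [mul_nonneg (sq_nonneg (u ω)) (sq_nonneg (g₀ - u ω))]
  refine (expect_le_expect fun ω _ => h4 ω).trans (le_of_eq ?_)
  rw [expect_add_distrib, expect_add_distrib, ← mul_expect, ← mul_expect, h1, h2,
    Fintype.expect_const]
  ring

theorem bonami_aux (s : Finset ι) : ∀ c : (ι → Ω) → ℝ, (∀ α i, i ∉ s → α i ≠ B.o → c α = 0) →
    𝔼 x, B.syn c x ^ 4 ≤ (∑ α, (4 * Fintype.card Ω : ℝ) ^ B.deg α * c α ^ 2) ^ 2 := by
  have := B.nonempty
  have hq : (1 : ℝ) ≤ Fintype.card Ω := by exact_mod_cast Fintype.card_pos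
  induction s using Finset.induction_on with
  | empty =>
    intro c hc
    have h0 : ∀ α, α ≠ B.z → c α = 0 := fun α hα => by
      obtain ⟨i, hi⟩ := Function.ne_iff.1 hα
      exact hc α i (by simp) hi
    have h1 : ∀ x, B.syn c x = c B.z := fun x => by
      rw [syn, Finset.sum_eq_single B.z (fun α _ hα => by rw [h0 α hα, zero_mul]) (by simp), E_z,
        mul_one]
    rw [Finset.sum_eq_single B.z (fun α _ hα => by rw [h0 α hα]; simp) (by simp)]
    simp only [h1, Fintype.expect_const, deg_z]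
    simp [← pow_mul]
  | insert i s hi ih =>
    intro c hc
    set K : ℝ := 4 * Fintype.card Ω with hK
    set A : Ω → ℝ := fun a => ∑ α, K ^ B.deg α * B.part c i a α ^ 2 with hA
    have hA0 : ∀ a, 0 ≤ A a := fun a => sum_nonneg fun _ _ => by positivity
    have g : ∀ a, 𝔼 x, B.syn (B.part c i a) x ^ 4 ≤ A a ^ 2 := fun a => ih _ fun α j hj hα => by
      unfold part
      split_ifs with h
      · have hji : j ≠ i := fun e => hα (e ▸ h)
        exact hc _ j (by simp [hj, hji]) (by rwa [Function.update_of_ne hji])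
      · rfl
    have g2 : ∀ a b, 𝔼 x, B.syn (B.part c i a) x ^ 2 * B.syn (B.part c i b) x ^ 2 ≤ A a * A b := by
      intro a b
      have h9 := expect_mul_sq_le_sq_mul_sq univ (fun x => B.syn (B.part c i a) x ^ 2)
        fun x => B.syn (B.part c i b) x ^ 2
      simp only [← pow_mul] at h9
      refine le_of_sq_le_sq (h9.trans ?_) (mul_nonneg (hA0 a) (hA0 b))
      rw [mul_pow]
      exact mul_le_mul (g a) (g b) (expect_nonneg fun _ _ => Even.pow_nonneg (by decide) _)
        (sq_nonneg _)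
    have hup : ∀ a x b, B.syn (B.part c i a) (Function.update x i b) = B.syn (B.part c i a) x :=
      fun a => B.syn_update fun α hα => if_neg hα
    have hsum : ∑ α, K ^ B.deg α * c α ^ 2 = A B.o + K * ∑ a ∈ univ.erase B.o, A a := by
      rw [B.sum_part i, ← add_sum_erase univ _ (mem_univ B.o), mul_sum]
      congr 1
      · refine sum_congr rfl fun α _ => ?_
        unfold part
        split_ifs with h
        · rw [← h, Function.update_eq_self]
        · simp
      · refine sum_congr rfl fun a ha => ?_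
        rw [hA, mul_sum]
        refine sum_congr rfl fun α _ => ?_
        unfold part
        split_ifs with h
        · rw [B.deg_update h (ne_of_mem_erase ha)]
          ring
        · simp
    rw [← expect_update (fun x => B.syn c x ^ 4) i, hsum]
    have h5 : ∀ x : ι → Ω, 𝔼 b, B.syn c (Function.update x i b) ^ 4 ≤
        B.syn (B.part c i B.o) x ^ 4 + 8 * (∑ a ∈ univ.erase B.o,
          B.syn (B.part c i B.o) x ^ 2 * B.syn (B.part c i a) x ^ 2) +
        3 * Fintype.card Ω * ∑ a ∈ univ.erase B.o, ∑ b ∈ univ.erase B.o,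
          B.syn (B.part c i a) x ^ 2 * B.syn (B.part c i b) x ^ 2 := by
      intro x
      have h6 := B.one_var (B.syn (B.part c i B.o) x) fun a => B.syn (B.part c i a) x
      rw [mul_sum, sq (∑ a ∈ univ.erase B.o, _), sum_mul_sum] at h6
      refine le_trans (le_of_eq (expect_congr rfl fun b _ => ?_)) h6
      rw [B.syn_eq_part c i, ← add_sum_erase univ _ (mem_univ B.o), B.e_o, one_mul]
      simp only [hup, Function.update_self]
    refine (expect_le_expect fun x _ => h5 x).trans ?_
    rw [expect_add_distrib, expect_add_distrib, ← mul_expect, ← mul_expect, expect_sum_comm,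
      expect_sum_comm]
    simp only [expect_sum_comm]
    have h7 : ∑ a ∈ univ.erase B.o, 𝔼 x, B.syn (B.part c i B.o) x ^ 2 * B.syn (B.part c i a) x ^ 2
        ≤ A B.o * ∑ a ∈ univ.erase B.o, A a := by
      rw [mul_sum]
      exact sum_le_sum fun a _ => g2 _ _
    have h8 : ∑ a ∈ univ.erase B.o, ∑ b ∈ univ.erase B.o,
        𝔼 x, B.syn (B.part c i a) x ^ 2 * B.syn (B.part c i b) x ^ 2
        ≤ (∑ a ∈ univ.erase B.o, A a) ^ 2 := by
      rw [sq (∑ a ∈ univ.erase B.o, A a), sum_mul_sum]
      exact sum_le_sum fun a _ => sum_le_sum fun b _ => g2 _ _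
    set S := ∑ a ∈ univ.erase B.o, A a with hS
    have hS0 : 0 ≤ S := sum_nonneg fun a _ => hA0 a
    have h9 := mul_le_mul_of_nonneg_left h8 (show (0 : ℝ) ≤ 3 * Fintype.card Ω by positivity)
    have h10 : 0 ≤ A B.o * S := mul_nonneg (hA0 _) hS0
    have h11 : 3 * Fintype.card Ω * S ^ 2 ≤ K ^ 2 * S ^ 2 :=
      mul_le_mul_of_nonneg_right (by rw [hK]; nlinarith) (sq_nonneg _)
    have h12 : 8 * (A B.o * S) ≤ 2 * K * (A B.o * S) :=
      mul_le_mul_of_nonneg_right (by rw [hK]; linarith) h10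
    nlinarith [g B.o]

/-- The inequality of Bonami on a product of copies of a finite set. -/
theorem bonami (c : (ι → Ω) → ℝ) :
    𝔼 x, B.syn c x ^ 4 ≤ (∑ α, (4 * Fintype.card Ω : ℝ) ^ B.deg α * c α ^ 2) ^ 2 :=
  B.bonami_aux univ c fun _ i hi _ => absurd (mem_univ i) hi

end Bas

end Vale.Agent.N325M
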