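import Vale.Agent.N325M.Stab
import Vale.Agent.N325.VC

/-!
The reductions of Khot, Kindler, Mossel and O'Donnell from unique games.
-/

namespace Vale.Agent.N325M

open Finset Vale.Agent.Lib.PCP Vale.Agent.Lib.PolyTime Vale.Agent.P325 Vale.Agent.N325
open scoped BigOperators

/-! ### Correlated pairs -/

theorem expect_lt {M r : ℕ} (hM : 0 < M) (h : r ≤ M) (a b : ℝ) :
    𝔼 m : Fin M, (if (m : ℕ) < r then a else b) = r / M * a + (1 - r / M) * b := by
  have h0 : (M : ℝ) ≠ 0 := by exact_mod_cast hM.ne'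
  have h1 : (range M).filter (fun m => m < r) = range r := by
    ext m
    simp only [mem_filter, mem_range]
    omega
  have h2 : ∀ m : ℕ, (if m < r then a else b) = b + if m < r then a - b else 0 := fun m => by
    split_ifs <;> ring
  rw [Fintype.expect_eq_sum_div_card, Fin.sum_univ_eq_sum_range (fun m => if m < r then a else b),
    Fintype.card_fin]
  simp only [h2, sum_add_distrib, ← sum_filter, h1, sum_const, card_range, nsmul_eq_mul]
  field_simp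
  ring

/-- A correlated pair with rational correlation. -/
noncomputable def corFin (Ω : Type) [Fintype Ω] [Nonempty Ω] {M r : ℕ} (hM : 0 < M) (h : r ≤ M) :
    Cor Ω (Ω × Ω × Fin M) (r / M) where
  X w := w.1
  Y w := if (w.2.2 : ℕ) < r then w.1 else w.2.1
  law φ ψ := by
    rw [expect_prod3]
    simp only [apply_ite ψ, mul_ite, expect_lt hM h, expect_add_distrib, ← mul_expect,
      Fintype.expect_const, ← expect_mul]

theorem exists_cor (Ω : Type) [Fintype Ω] [Nonempty Ω] {ρ κ : ℝ} (h0 : 0 ≤ ρ) (h1 : ρ ≤ 1)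
    (hκ : 0 < κ) : ∃ (W : Type) (_ : Fintype W) (_ : Nonempty W) (ρ' : ℝ), 0 ≤ ρ' ∧ ρ' ≤ ρ ∧
      ρ - κ ≤ ρ' ∧ Nonempty (Cor Ω W ρ') := by
  obtain ⟨M, hM⟩ := exists_nat_gt (1 / κ)
  have hM0 : (0 : ℝ) < M := lt_trans (by positivity) hM
  have h2 := Nat.floor_le (mul_nonneg h0 hM0.le)
  have h3 := Nat.lt_floor_add_one (ρ * M)
  have : Nonempty (Fin M) := ⟨⟨0, by exact_mod_cast hM0⟩⟩
  refine ⟨Ω × Ω × Fin M, inferInstance, inferInstance, ⌊ρ * M⌋₊ / M, by positivity,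
    (div_le_iff₀ hM0).2 h2, (le_div_iff₀ hM0).2 ?_, ⟨corFin Ω (by exact_mod_cast hM0) ?_⟩⟩
  · rw [div_lt_iff₀ hκ] at hM
    nlinarith
  · exact_mod_cast h2.trans (mul_le_of_le_one_left hM0.le h1)

section Inf

variable {Ω W : Type} [Fintype Ω] [DecidableEq Ω] [Fintype W] {ρ : ℝ} (B : Bas Ω) (P : Cor Ω W ρ)
variable {ι : Type} [Fintype ι] [DecidableEq ι]

theorem Cor.eq_prob [Nonempty Ω] : 𝔼 w, (if P.Y w = P.X w then (1 : ℝ) else 0) =
    ρ + (1 - ρ) / Fintype.card Ω := by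
  have h0 : (Fintype.card Ω : ℝ) ≠ 0 := by exact_mod_cast Fintype.card_ne_zero
  have h1 : ∀ w, (if P.Y w = P.X w then (1 : ℝ) else 0) =
      ∑ a, (if P.X w = a then (1 : ℝ) else 0) * if P.Y w = a then (1 : ℝ) else 0 := fun w => by
    simp [eq_comm]
  have h2 := fun a => P.law (fun x => if x = a then (1 : ℝ) else 0) fun x => if x = a then 1 else 0
  simp only [h1, expect_sum_comm, h2]
  simp only [Fintype.expect_eq_sum_div_card, ite_mul, one_mul, zero_mul, sum_ite_eq', mem_univ,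
    if_true, sum_const, card_univ, nsmul_eq_mul]
  field_simp

include B in
theorem cor_mid (h0 : 0 ≤ ρ) (f g : (ι → Ω) → ℝ) : 𝔼 w : ι → W, f (P.X ∘ w) * g (P.Y ∘ w) ≤
    𝔼 w : ι → W, (f (P.X ∘ w) + g (P.X ∘ w)) / 2 * ((f (P.Y ∘ w) + g (P.Y ∘ w)) / 2) := by
  have h1 := B.cor_syn P (B.hat f) (B.hat g)
  have h2 := B.cor_syn P (fun α => 1 / 2 * (B.hat f α + B.hat g α))
    fun α => 1 / 2 * (B.hat f α + B.hat g α)
  simp only [B.syn_smul, B.syn_add, B.syn_hat] at h1 h2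
  simp only [div_eq_inv_mul _ (2 : ℝ), mul_one] at h2 ⊢
  rw [h1, h2]
  exact sum_le_sum fun α _ => mul_le_mul_of_nonneg_left
    (by nlinarith [sq_nonneg (B.hat f α - B.hat g α)]) (pow_nonneg h0 _)

theorem inf_nonneg (D : ℕ) (c : (ι → Ω) → ℝ) (i : ι) : 0 ≤ B.inf D c i :=
  sum_nonneg fun _ _ => by split_ifs <;> positivity

theorem inf_comp (D : ℕ) (σ : ι ≃ ι) (f : (ι → Ω) → ℝ) (i : ι) :
    B.inf D (B.hat fun x => f (x ∘ σ)) i = B.inf D (B.hat f) (σ.symm i) := by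
  have h1 : ∀ α, B.hat (fun x => f (x ∘ σ)) α = B.hat f (α ∘ σ) := fun α =>
    Fintype.expect_equiv (σ.symm.arrowCongr (Equiv.refl Ω)) _ _ fun x => by
      congr 1
      exact (Equiv.prod_comp σ fun j => B.e (α j) (x j)).symm
  refine Fintype.sum_equiv (σ.symm.arrowCongr (Equiv.refl Ω)) _ _ fun α => ?_
  have h2 : B.deg (α ∘ σ) = B.deg α := card_equiv σ (by simp)
  rw [h1, ← h2]
  refine if_congr (and_congr ?_ Iff.rfl) rfl rfl
  simp

theorem inf_avg {Y : Type} [Fintype Y] [Nonempty Y] (D : ℕ) (f : Y → (ι → Ω) → ℝ) (i : ι) :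
    B.inf D (B.hat fun x => 𝔼 y, f y x) i ≤ 𝔼 y, B.inf D (B.hat (f y)) i := by
  simp only [Bas.inf, expect_sum_comm]
  refine sum_le_sum fun α _ => ?_
  split_ifs
  · have h1 : B.hat (fun x => 𝔼 y, f y x) α = 𝔼 y, B.hat (f y) α := by
      simp only [Bas.hat, expect_mul]
      exact expect_comm _ _ _
    have h2 := expect_mul_sq_le_sq_mul_sq univ (fun _ : Y => (1 : ℝ)) fun y => B.hat (f y) α
    simpa [h1] using h2
  · simp

theorem sum_inf_le (D : ℕ) {f : (ι → Ω) → ℝ} (h : ∀ x, f x ∈ Set.Icc (0 : ℝ) 1) :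
    ∑ i, B.inf D (B.hat f) i ≤ D := by
  have := B.nonempty
  have h1 : 𝔼 x, f x ^ 2 ≤ 1 := expect_le univ_nonempty fun x _ => pow_le_one₀ (h x).1 (h x).2
  rw [← B.sum_hat_sq] at h1
  refine le_trans ?_ (mul_le_of_le_one_right (Nat.cast_nonneg D) h1)
  simp only [Bas.inf]
  rw [sum_comm, mul_sum]
  refine sum_le_sum fun α _ => ?_
  by_cases hd : B.deg α ≤ D
  · simp only [hd, and_true, ← sum_filter, sum_const, nsmul_eq_mul]
    exact mul_le_mul_of_nonneg_right (Nat.cast_le.2 hd) (sq_nonneg _)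
  · simp only [hd, and_false, if_false, sum_const_zero]
    positivity

end Inf

/-! ### Pairs of equations with a common left vertex -/

section Pairs

variable {Γ : Type}

/-- The pairs. -/
def prs (l : List (ℕ × ℕ × Γ)) : List ((ℕ × ℕ × Γ) × ℕ × ℕ × Γ) :=
  l.flatMap fun e => (star l e.1).map fun e' => (e, e')

theorem mem_star {l : List (ℕ × ℕ × Γ)} {u : ℕ} {e : ℕ × ℕ × Γ} :
    e ∈ star l u ↔ e ∈ l ∧ e.1 = u := by simp [N325.star]

theorem star_fst (l : List (ℕ × ℕ × Γ)) (u : ℕ) (y : Fin (star l u).length) :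
    (star l u)[y].1 = u := (mem_star.1 (List.getElem_mem (l := star l u) y.2)).2

theorem mem_prs {l : List (ℕ × ℕ × Γ)} {p : (ℕ × ℕ × Γ) × ℕ × ℕ × Γ} (h : p ∈ prs l) :
    p.1 ∈ l ∧ p.2 ∈ l ∧ p.2.1 = p.1.1 := by
  simp only [prs, List.mem_flatMap, List.mem_map] at h
  obtain ⟨e, he, e', he', rfl⟩ := h
  exact ⟨he, mem_star.1 he'⟩

theorem PT_prs [Enc Γ] : PT ∅ (prs (Γ := Γ)) :=
  PT.flatMap PT.id (PT.map (PT.filter (f := fun (p : List (ℕ × ℕ × Γ) × ℕ × ℕ × Γ) (e : ℕ × ℕ × Γ) =>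
    decide (e.1 = p.2.1)) PT.fst' (PT.eqNat PT.snd'.fst PT.fst'.snd.fst)) (PT.fst'.snd.pair PT.snd'))

variable {I : Inst Γ} {d d' : ℕ}

theorem sum_edges (h : WF I d d') (φ : ℕ × ℕ × Γ → ℝ) : (I.2.2.map φ).sum =
    d * ∑ u ∈ range I.1.v, 𝔼 y : Fin (star I.2.2 u).length, φ (star I.2.2 u)[y] := by
  rw [← sum_star _ (fun e he => (h.lt e he).1), mul_sum]
  refine sum_congr rfl fun u hu => ?_
  rw [sum_map_eq_sum_fin, ← Fintype.card_mul_expect, Fintype.card_fin,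
    show ((star I.2.2 u).length : ℝ) = d from congrArg Nat.cast (length_star h (mem_range.1 hu))]

theorem sum_prs (h : WF I d d') (φ : (ℕ × ℕ × Γ) × ℕ × ℕ × Γ → ℝ) : ((prs I.2.2).map φ).sum =
    d * (d * ∑ u ∈ range I.1.v, 𝔼 y : Fin (star I.2.2 u).length,
      𝔼 y' : Fin (star I.2.2 u).length, φ ((star I.2.2 u)[y], (star I.2.2 u)[y'])) := by
  rw [prs, sum_map_flatMap, sum_edges h]
  congr 1
  rw [mul_sum]
  refine sum_congr rfl fun u hu => ?_
  rw [mul_expect]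
  refine expect_congr rfl fun y _ => ?_
  rw [List.map_map, star_fst, sum_map_eq_sum_fin, ← Fintype.card_mul_expect, Fintype.card_fin,
    show ((star I.2.2 u).length : ℝ) = d from congrArg Nat.cast (length_star h (mem_range.1 hu))]
  rfl

theorem star_ne (h : WF I d d') {u : ℕ} (hu : u ∈ range I.1.v) :
    Nonempty (Fin (star I.2.2 u).length) := ⟨⟨0, length_star h (mem_range.1 hu) ▸ h.pos⟩⟩

theorem sum_prs_fst (h : WF I d d') (φ : ℕ × ℕ × Γ → ℝ) :
    ((prs I.2.2).map fun p => φ p.1).sum = d * (I.2.2.map φ).sum := by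
  rw [sum_prs h, sum_edges h]
  congr 2
  refine sum_congr rfl fun u hu => ?_
  have := star_ne h hu
  simp only [Fintype.expect_const]

theorem sum_prs_snd (h : WF I d d') (φ : ℕ × ℕ × Γ → ℝ) :
    ((prs I.2.2).map fun p => φ p.2).sum = d * (I.2.2.map φ).sum := by
  rw [sum_prs h, sum_edges h]
  congr 2
  refine sum_congr rfl fun u hu => ?_
  have := star_ne h hu
  simp only [Fintype.expect_const]

theorem length_prs (h : WF I d d') : ((prs I.2.2).length : ℝ) = d * I.2.2.length := by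
  simpa only [sum_map_const, one_mul] using sum_prs_fst h fun _ => 1

theorem prs_ne (h : WF I d d') : prs I.2.2 ≠ [] := by
  rw [← List.length_pos_iff, ← Nat.cast_pos (α := ℝ), length_prs h]
  exact mul_pos (Nat.cast_pos.2 h.pos) (Nat.cast_pos.2 (List.length_pos_iff.2 h.ne))

variable [Group Γ] [DecidableEq Γ]

/-- Most pairs consist of two satisfied equations. -/
theorem good_prs (h : WF I d d') {η a : ℝ} (ha : 0 ≤ a) {F : (ℕ → Γ) × (ℕ → Γ)}
    (hF : (1 - η) * I.2.2.length ≤ (cnt satG I.2.2 F : ℝ)) (φ : (ℕ × ℕ × Γ) × ℕ × ℕ × Γ → ℝ)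
    (h0 : ∀ p, 0 ≤ φ p) (h1 : ∀ p : (ℕ × ℕ × Γ) × ℕ × ℕ × Γ,
      p.1.2.2⁻¹ * F.2 p.1.2.1 = p.2.2.2⁻¹ * F.2 p.2.2.1 → a ≤ φ p) :
    (1 - 2 * η) * a * (prs I.2.2).length ≤ ((prs I.2.2).map φ).sum := by
  have h2 : ((prs I.2.2).map fun p => a * (if satG p.1 F = true then (1 : ℝ) else 0) +
      (a * (if satG p.2 F = true then (1 : ℝ) else 0) + -a)).sum ≤ ((prs I.2.2).map φ).sum := by
    refine List.sum_le_sum fun p hp => ?_
    split_ifs with e1 e2 e2
    · have := h1 p (by rw [satG_iff.1 e1, satG_iff.1 e2, inv_mul_cancel_left, inv_mul_cancel_left,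
        (mem_prs hp).2.2])
      linarith
    all_goals linarith [h0 p]
  rw [List.sum_map_add, List.sum_map_add, List.sum_map_mul_left, List.sum_map_mul_left,
    sum_prs_fst h fun e => if satG e F = true then (1 : ℝ) else 0,
    sum_prs_snd h fun e => if satG e F = true then (1 : ℝ) else 0, ← cnt_eq_sum, sum_map_const,
    length_prs h] at h2
  rw [length_prs h]
  nlinarith [mul_le_mul_of_nonneg_left hF (mul_nonneg ha (Nat.cast_nonneg d))]

/-- The permutation of the coordinates. -/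
def sh {Ω : Type} (γ : Γ) (x : Γ → Ω) : Γ → Ω := x ∘ Equiv.mulLeft γ⁻¹

variable [Fintype Γ] {Ω W : Type} [Fintype Ω] [DecidableEq Ω] [Fintype W] {ρ : ℝ}

/-- Functions with mean `μ` and small influences have stability at most `T`. -/
def Stable (B : Bas Ω) (P : Cor Ω W ρ) (Γ : Type) [Fintype Γ] [DecidableEq Γ] (D : ℕ)
    (τ μ T : ℝ) : Prop :=
  ∀ f : (Γ → Ω) → ℝ, (∀ x, f x ∈ Set.Icc (0 : ℝ) 1) → 𝔼 x, f x = μ →
    (∀ i, B.inf D (B.hat f) i ≤ τ) → 𝔼 w : Γ → W, f (P.X ∘ w) * f (P.Y ∘ w) ≤ T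

theorem sound [Nonempty W] {B : Bas Ω} {P : Cor Ω W ρ} (h0 : 0 ≤ ρ) {D : ℕ} {τ μ T s : ℝ}
    (hτ : 0 < τ) (hT : 0 ≤ T) (st : Stable B P Γ D τ μ T) (h : WF I d d')
    (hI : ∀ F, (cnt satG I.2.2 F : ℝ) ≤ s * I.2.2.length) (φ ψ : ℕ → (Γ → Ω) → ℝ)
    (hφ : ∀ v x, φ v x ∈ Set.Icc (0 : ℝ) 1) (hψ : ∀ v x, ψ v x ∈ Set.Icc (0 : ℝ) 1)
    (hμ : ∀ v, 𝔼 x, φ v x + 𝔼 x, ψ v x = 2 * μ) :
    ((prs I.2.2).map fun p => 𝔼 w : Γ → W, φ p.1.2.1 (sh p.1.2.2 (P.X ∘ w)) *
      ψ p.2.2.1 (sh p.2.2.2 (P.Y ∘ w))).sum ≤ (T + D * s / τ) * (prs I.2.2).length := by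
  have := B.nonempty
  obtain ⟨m, hm⟩ : ∃ m : ℕ → (Γ → Ω) → ℝ, ∀ v x, m v x = (φ v x + ψ v x) / 2 := ⟨_, fun _ _ => rfl⟩
  have m1 : ∀ v x, m v x ∈ Set.Icc (0 : ℝ) 1 := fun v x => by
    rw [hm]
    exact ⟨by linarith [(hφ v x).1, (hψ v x).1], by linarith [(hφ v x).2, (hψ v x).2]⟩
  have m2 : ∀ v (γ : Γ), 𝔼 x, m v (sh γ x) = μ := fun v γ => by
    rw [Fintype.expect_equiv ((Equiv.mulLeft γ⁻¹).symm.arrowCongr (Equiv.refl Ω))
      (fun x => m v (sh γ x)) (m v) fun _ => rfl]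
    simp only [hm, ← expect_div, expect_add_distrib, hμ]
    ring
  obtain ⟨g, hg⟩ : ∃ g : ℕ → (Γ → Ω) → ℝ, ∀ u, g u = fun x => 𝔼 y : Fin (star I.2.2 u).length,
    m (star I.2.2 u)[y].2.1 (sh (star I.2.2 u)[y].2.2 x) := ⟨_, fun _ => rfl⟩
  have hmax : ∀ u, ∃ i, ∀ j, B.inf D (B.hat (g u)) j ≤ B.inf D (B.hat (g u)) i := fun u => by
    obtain ⟨i, -, hi⟩ := exists_max_image univ (B.inf D (B.hat (g u))) univ_nonempty
    exact ⟨i, fun j => hi j (mem_univ j)⟩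
  choose F hF using hmax
  have h1 : (I.2.2.map fun e => B.inf D (B.hat (m e.2.1)) (e.2.2 * F e.1)).sum ≤
      D * (s * I.2.2.length) := by
    have h2 := frac_le (fun p : Fin I.2.2.length => I.2.2[p].2.1)
      (fun p c => if c = I.2.2[p].2.2 * F I.2.2[p].1 then (1 : ℝ) else 0)
      (fun _ _ => by split_ifs <;> norm_num) (S := s * I.2.2.length) (fun F' => by
        have h3 := hI (F, F')
        rw [cnt_eq_fin] at h3
        exact le_trans (le_of_eq (sum_congr rfl fun p _ =>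
          if_congr (satG_iff (c := I.2.2[p]) (F := (F, F'))).symm rfl rfl)) h3)
      (fun v c => B.inf D (B.hat (m v)) c) (Nat.cast_nonneg D) (fun _ _ => inf_nonneg B _ _ _)
      fun v => sum_inf_le B D (m1 v)
    rw [sum_map_eq_sum_fin]
    simpa only [mul_ite, mul_one, mul_zero, sum_ite_eq', mem_univ, if_true] using h2
  have h2 : ∀ u ∈ range I.1.v, (𝔼 y : Fin (star I.2.2 u).length, 𝔼 y' : Fin (star I.2.2 u).length,
      𝔼 w : Γ → W, φ (star I.2.2 u)[y].2.1 (sh (star I.2.2 u)[y].2.2 (P.X ∘ w)) *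
        ψ (star I.2.2 u)[y'].2.1 (sh (star I.2.2 u)[y'].2.2 (P.Y ∘ w))) ≤
      T + (𝔼 y : Fin (star I.2.2 u).length, B.inf D (B.hat (m (star I.2.2 u)[y].2.1))
        ((star I.2.2 u)[y].2.2 * F (star I.2.2 u)[y].1)) / τ := by
    intro u hu
    have := star_ne h hu
    have g1 : ∀ x, g u x ∈ Set.Icc (0 : ℝ) 1 := fun x => by
      rw [hg]
      exact ⟨expect_nonneg fun _ _ => (m1 _ _).1, expect_le univ_nonempty fun _ _ => (m1 _ _).2⟩
    have g2 : 𝔼 x, g u x = μ := by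
      rw [hg, expect_comm]
      simp only [m2, Fintype.expect_const]
    have g3 : B.inf D (B.hat (g u)) (F u) ≤ 𝔼 y : Fin (star I.2.2 u).length,
        B.inf D (B.hat (m (star I.2.2 u)[y].2.1))
          ((star I.2.2 u)[y].2.2 * F (star I.2.2 u)[y].1) := by
      rw [hg]
      refine (inf_avg B D _ _).trans (le_of_eq (expect_congr rfl fun y _ => ?_))
      rw [star_fst]
      refine (inf_comp B D (Equiv.mulLeft _) _ _).trans ?_
      simp
    have g4 : 𝔼 w : Γ → W, g u (P.X ∘ w) * g u (P.Y ∘ w) ≤ T + B.inf D (B.hat (g u)) (F u) / τ := by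
      rcases le_total (B.inf D (B.hat (g u)) (F u)) τ with e | e
      · exact (st _ g1 g2 fun i => (hF u i).trans e).trans
          (le_add_of_nonneg_right (div_nonneg (inf_nonneg B _ _ _) hτ.le))
      · refine (expect_le univ_nonempty fun w _ => mul_le_one₀ (g1 _).2 (g1 _).1 (g1 _).2).trans ?_
        linarith [(one_le_div hτ).2 e]
    refine le_trans ?_ (g4.trans (add_le_add le_rfl (div_le_div_of_nonneg_right g3 hτ.le)))
    have g5 := cor_mid B P h0 (fun x => 𝔼 y : Fin (star I.2.2 u).length,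
      φ (star I.2.2 u)[y].2.1 (sh (star I.2.2 u)[y].2.2 x)) fun x =>
        𝔼 y : Fin (star I.2.2 u).length, ψ (star I.2.2 u)[y].2.1 (sh (star I.2.2 u)[y].2.2 x)
    simp only [hg, hm, ← expect_div, expect_add_distrib]
    refine le_trans (le_of_eq ?_) g5
    simp only [expect_mul_expect]
    rw [expect_comm (univ : Finset (Γ → W))]
    exact expect_congr rfl fun y _ => expect_comm _ _ _
  have h3 := sum_edges h fun _ => 1
  rw [sum_prs h, length_prs h]
  rw [sum_edges h] at h1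
  have h4 := sum_le_sum h2
  rw [sum_add_distrib, ← sum_div, sum_const, card_range, nsmul_eq_mul] at h4
  rw [sum_congr rfl fun u hu => by
    have := star_ne h hu
    exact Fintype.expect_const (1 : ℝ), sum_map_const, one_mul, sum_const, card_range, nsmul_eq_mul,
    mul_one] at h3
  have hd : (0 : ℝ) ≤ d := Nat.cast_nonneg d
  refine (mul_le_mul_of_nonneg_left (mul_le_mul_of_nonneg_left h4 hd) hd).trans ?_
  have h5 := mul_le_mul_of_nonneg_left (div_le_div_of_nonneg_right h1 hτ.le) hd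
  rw [h3] at h5 ⊢
  refine le_trans (le_of_eq ?_) ((add_le_add (le_refl (d * (d * (I.1.v * T)))) h5).trans (le_of_eq ?_))
  all_goals ring

end Pairs

/-! ### The reductions -/

section Num

variable {Γ Ω : Type} [Fintype Γ] [DecidableEq Γ] [Fintype Ω]

/-- The number of a point of the long code of a vertex. -/
noncomputable def num (v : ℕ) (x : Γ → Ω) : ℕ :=
  v * Fintype.card (Γ → Ω) + Fintype.equivFin (Γ → Ω) x

theorem num_lt {n v : ℕ} (h : v < n) (x : Γ → Ω) : num v x < n * Fintype.card (Γ → Ω) := by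
  have h1 := (Fintype.equivFin (Γ → Ω) x).2
  have h2 := Nat.mul_le_mul_right (Fintype.card (Γ → Ω)) (Nat.succ_le_of_lt h)
  rw [Nat.succ_mul] at h2
  unfold num
  omega

theorem num_div (v : ℕ) (x : Γ → Ω) : num v x / Fintype.card (Γ → Ω) = v := by
  have h1 := (Fintype.equivFin (Γ → Ω) x).2
  rw [num, mul_comm, Nat.mul_add_div (by omega), Nat.div_eq_of_lt h1, add_zero]

theorem pt_num [Nonempty Ω] (v : ℕ) (x : Γ → Ω) : pt Γ Ω (num v x) = x := by
  rw [pt, Equiv.symm_apply_eq]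
  refine Fin.ext ?_
  simp only [num, Nat.mul_add_mod_self_right]
  exact Nat.mod_eq_of_lt (Fintype.equivFin (Γ → Ω) x).2

theorem PT_num [Enc Γ] [EncInj Γ] {α : Type} [Enc α] {v : α → ℕ} {γ : α → Γ} (hv : PT ∅ v)
    (hγ : PT ∅ γ) (x : Γ → Γ → Ω) : PT ∅ fun a => num (v a) (x (γ a)) :=
  (hv.mul (PT.const _)).add (PT.finComp (fun g => (Fintype.equivFin (Γ → Ω) (x g) : ℕ)) hγ)

theorem sum_blow' {α β T : Type} [Fintype T] (φ : α → T → β) (l : List α) (ψ : β → ℝ) :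
    ((blow T φ l).map ψ).sum = Fintype.card T * (l.map fun e => 𝔼 t, ψ (φ e t)).sum := by
  simp only [sum_blow, ← Fintype.card_mul_expect, List.sum_map_mul_left]

theorem mem_blow {α β T : Type} [Fintype T] {φ : α → T → β} {l : List α} {b : β}
    (h : b ∈ blow T φ l) : ∃ a ∈ l, ∃ t, φ a t = b := by
  simpa [blow] using h

end Num

section Lin

variable {Γ A W : Type} [Group Γ] [Fintype Γ] [DecidableEq Γ] [Group A] [Fintype A] [DecidableEq A]
  [Fintype W] [Nonempty W] {ρ : ℝ}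

/-- The gap problem on numbered instances. -/
def LinP (A : Type) [Group A] [DecidableEq A] (c s : ℝ) : Promise (Inst A) where
  yes I := InR I ∧ ∃ F, c * I.2.2.length ≤ (cnt satG I.2.2 F : ℝ)
  no I := InR I ∧ ∀ F, (cnt satG I.2.2 F : ℝ) ≤ s * I.2.2.length

/-- The equation for a pair, a noise pattern and two shifts. -/
noncomputable def linE (P : Cor A W ρ) (p : (ℕ × ℕ × Γ) × ℕ × ℕ × Γ) (t : (Γ → W) × A × A) :
    ℕ × ℕ × A :=
  (num p.1.2.1 fun b => t.2.1 * sh p.1.2.2 (P.X ∘ t.1) b,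
    num p.2.2.1 fun b => t.2.2 * sh p.2.2.2 (P.Y ∘ t.1) b, t.2.2 * t.2.1⁻¹)

omit [DecidableEq A] [Nonempty W] in
theorem PT_linE [Enc Γ] [EncInj Γ] [Enc A] (P : Cor A W ρ) (t : (Γ → W) × A × A) :
    PT ∅ fun p : (ℕ × ℕ × Γ) × ℕ × ℕ × Γ => linE P p t :=
  (PT_num PT.fst'.snd.fst PT.fst'.snd.snd fun γ b => t.2.1 * sh γ (P.X ∘ t.1) b).pair
    ((PT_num PT.snd'.snd.fst PT.snd'.snd.snd fun γ b => t.2.2 * sh γ (P.Y ∘ t.1) b).pair
      (PT.const _))

theorem red_linP [Enc Γ] [EncInj Γ] [Enc A] {B : Bas A} {P : Cor A W ρ} (h0 : 0 ≤ ρ) (h1 : ρ ≤ 1)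
    {D : ℕ} {τ T : ℝ} (hτ : 0 < τ) (hT : 0 ≤ T) (st : Stable B P Γ D τ (1 / Fintype.card A) T)
    (η s : ℝ) : Red (RegP Γ (1 - η) s) (LinP A ((1 - 2 * η) * (ρ + (1 - ρ) / Fintype.card A))
      (Fintype.card A * (T + D * s / τ))) := by
  have hn : PT ∅ fun I : Inst Γ => Un.mk (I.2.1.v * Fintype.card (Γ → A)) :=
    PT.mkUn (PT.snd'.fst.unVal.mul (PT.const _))
      ((PBd.unVal (A := ∅) PT.snd'.fst).mul (PBd.const _))
  have hR : ∀ (I : Inst Γ) (d : ℕ), WF I d d → InR (⟨I.2.1.v * Fintype.card (Γ → A)⟩,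
      ⟨I.2.1.v * Fintype.card (Γ → A)⟩, blow _ (linE P) (prs I.2.2)) := fun I d h =>
    ⟨blow_ne_nil _ (prs_ne h), fun e he => by
      obtain ⟨p, hp, t, rfl⟩ := mem_blow he
      exact ⟨num_lt (h.lt _ (mem_prs hp).1).2 _, num_lt (h.lt _ (mem_prs hp).2.1).2 _⟩⟩
  refine ⟨fun I => (⟨I.2.1.v * Fintype.card (Γ → A)⟩, ⟨I.2.1.v * Fintype.card (Γ → A)⟩,
    blow _ (linE P) (prs I.2.2)), hn.pair (hn.pair ((PT_blow (PT_linE P)).comp
      (PT_prs.comp PT.snd'.snd))),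
    fun I ⟨⟨d, h⟩, F, hF⟩ => ⟨hR I d h, ?_⟩, fun I ⟨⟨d, h⟩, hI⟩ => ⟨hR I d h, fun F => ?_⟩⟩
  · refine ⟨(fun i => pt Γ A i (F.2 (i / Fintype.card (Γ → A))),
      fun i => pt Γ A i (F.2 (i / Fintype.card (Γ → A)))), ?_⟩
    rw [cnt_eq_sum, sum_blow', length_blow, Nat.cast_mul, mul_left_comm]
    refine mul_le_mul_of_nonneg_left (good_prs h (by
      have : 0 ≤ 1 - ρ := sub_nonneg.2 h1
      positivity) hF _ (fun _ => expect_nonneg fun _ _ => by split_ifs <;> norm_num)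
      fun p hp => le_of_eq ?_) (Nat.cast_nonneg _)
    rw [← P.eq_prob, ← expect_coord (fun w => if P.Y w = P.X w then (1 : ℝ) else 0)
      (p.1.2.2⁻¹ * F.2 p.1.2.1), expect_prod3]
    refine expect_congr rfl fun w _ => ?_
    simp only [satG_iff, linE, pt_num, num_div, sh, Function.comp_apply, Equiv.coe_mulLeft, ← hp,
      mul_assoc, inv_mul_cancel_left, mul_right_inj, Fintype.expect_const]
  · have h2 := fun a => sound h0 hτ hT st h hI (fun v => fold (fun x => F.1 (num v x)) a)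
      (fun v => fold (fun x => F.2 (num v x)) a)
      (fun _ _ => ⟨(simp_fold _).1 _ _, (simp_fold _).le_one _ _⟩)
      (fun _ _ => ⟨(simp_fold _).1 _ _, (simp_fold _).le_one _ _⟩) fun v => by
        rw [expect_fold, expect_fold]
        ring
    have h3 := sum_le_sum fun a (_ : a ∈ univ) => h2 a
    rw [← sum_map_finset_sum, sum_const, card_univ, nsmul_eq_mul, ← mul_assoc] at h3
    rw [cnt_eq_sum, sum_blow', length_blow, Nat.cast_mul, mul_left_comm]
    refine mul_le_mul_of_nonneg_left (le_trans (le_of_eq ?_) h3) (Nat.cast_nonneg _)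
    congr 1
    refine List.map_congr_left fun p _ => ?_
    rw [expect_prod3, ← expect_sum_comm]
    refine expect_congr rfl fun w _ => ?_
    simp only [N325.fold, expect_mul_expect, ← expect_sum_comm]
    refine expect_congr rfl fun c _ => expect_congr rfl fun c' _ => ?_
    simp only [satG_iff, linE, ← inv_mul_eq_iff_eq_mul (a := c), ite_mul, one_mul, zero_mul,
      sum_ite_eq, mem_univ, if_true, mul_assoc]

/-- The gap problem for cuts of lists of edges; fractional cuts are allowed in the second case. -/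
def CutP (c s : ℝ) : Promise (Un × List (ℕ × ℕ)) where
  yes G := (G.2 ≠ [] ∧ ∀ e ∈ G.2, e.1 < G.1.v ∧ e.2 < G.1.v) ∧ ∃ f : ℕ → Bool,
    c * G.2.length ≤ (G.2.map fun e => if f e.1 = f e.2 then (0 : ℝ) else 1).sum
  no G := (G.2 ≠ [] ∧ ∀ e ∈ G.2, e.1 < G.1.v ∧ e.2 < G.1.v) ∧ ∀ f : ℕ → ℝ,
    (∀ v, f v ∈ Set.Icc (0 : ℝ) 1) →
      (G.2.map fun e => f e.1 * (1 - f e.2) + (1 - f e.1) * f e.2).sum ≤ s * G.2.length

/-- The edge for a pair and a noise pattern. -/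
noncomputable def cutE (P : Cor Bool W ρ) (p : (ℕ × ℕ × Γ) × ℕ × ℕ × Γ) (w : Γ → W) : ℕ × ℕ :=
  (num p.1.2.1 (sh p.1.2.2 (P.X ∘ w)), num p.2.2.1 (not ∘ sh p.2.2.2 (P.Y ∘ w)))

theorem red_cutP [Enc Γ] [EncInj Γ] {B : Bas Bool} {P : Cor Bool W ρ} (h0 : 0 ≤ ρ)
    {D : ℕ} {τ T : ℝ} (hτ : 0 < τ) (hT : 0 ≤ T) (st : Stable B P Γ D τ (1 / 2) T)
    (η s : ℝ) : Red (RegP Γ (1 - η) s) (CutP ((1 - 2 * η) * ((1 + ρ) / 2))
      (2 * (T + D * s / τ))) := by
  have hR : ∀ (I : Inst Γ) (d : ℕ), WF I d d → blow _ (cutE P) (prs I.2.2) ≠ [] ∧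
      ∀ e ∈ blow _ (cutE P) (prs I.2.2), e.1 < I.2.1.v * Fintype.card (Γ → Bool) ∧
        e.2 < I.2.1.v * Fintype.card (Γ → Bool) := fun I d h =>
    ⟨blow_ne_nil _ (prs_ne h), fun e he => by
      obtain ⟨p, hp, t, rfl⟩ := mem_blow he
      exact ⟨num_lt (h.lt _ (mem_prs hp).1).2 _, num_lt (h.lt _ (mem_prs hp).2.1).2 _⟩⟩
  refine ⟨fun I => (⟨I.2.1.v * Fintype.card (Γ → Bool)⟩, blow _ (cutE P) (prs I.2.2)),
    (PT.mkUn (PT.snd'.fst.unVal.mul (PT.const _))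
      ((PBd.unVal (A := ∅) PT.snd'.fst).mul (PBd.const _))).pair ((PT_blow fun w =>
      (PT_num PT.fst'.snd.fst PT.fst'.snd.snd fun γ => sh γ (P.X ∘ w)).pair
      (PT_num PT.snd'.snd.fst PT.snd'.snd.snd fun γ => not ∘ sh γ (P.Y ∘ w))).comp
        (PT_prs.comp PT.snd'.snd)),
    fun I ⟨⟨d, h⟩, F, hF⟩ => ⟨hR I d h, ?_⟩, fun I ⟨⟨d, h⟩, hI⟩ => ⟨hR I d h, fun f hf => ?_⟩⟩
  · refine ⟨fun i => pt Γ Bool i (F.2 (i / Fintype.card (Γ → Bool))), ?_⟩
    rw [sum_blow', length_blow, Nat.cast_mul, mul_left_comm]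
    refine mul_le_mul_of_nonneg_left (good_prs h (by positivity) hF _
      (fun _ => expect_nonneg fun _ _ => by split_ifs <;> norm_num)
      fun p hp => le_of_eq ?_) (Nat.cast_nonneg _)
    have h1 := P.eq_prob
    rw [Fintype.card_bool, ← expect_coord (fun w => if P.Y w = P.X w then (1 : ℝ) else 0)
      (p.1.2.2⁻¹ * F.2 p.1.2.1)] at h1
    refine Eq.trans (by rw [h1]; push_cast; ring) (expect_congr rfl fun w _ => ?_ :
      𝔼 w : Γ → W, (if P.Y (w (p.1.2.2⁻¹ * F.2 p.1.2.1)) = P.X (w (p.1.2.2⁻¹ * F.2 p.1.2.1))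
        then (1 : ℝ) else 0) = _)
    simp only [cutE, pt_num, num_div, sh, Function.comp_apply, Equiv.coe_mulLeft, ← hp]
    cases P.Y _ <;> cases P.X _ <;> simp
  · have h1 : ∀ v, 𝔼 x : Γ → Bool, f (num v (not ∘ x)) = 𝔼 x : Γ → Bool, f (num v x) := fun v =>
      Fintype.expect_equiv ((Equiv.refl Γ).arrowCongr Bool.involutive_not.toPerm) _ _ fun _ => rfl
    have hf' : ∀ v, 1 - f v ∈ Set.Icc (0 : ℝ) 1 := fun v =>
      ⟨by linarith [(hf v).2], by linarith [(hf v).1]⟩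
    have h2 := sound h0 hτ hT st h hI (fun v x => f (num v x)) (fun v x => 1 - f (num v (not ∘ x)))
      (fun _ _ => hf _) (fun _ _ => hf' _) fun v => by
        rw [expect_sub_distrib, h1, Fintype.expect_const]
        ring
    have h3 := sound h0 hτ hT st h hI (fun v x => 1 - f (num v x)) (fun v x => f (num v (not ∘ x)))
      (fun _ _ => hf' _) (fun _ _ => hf _) fun v => by
        rw [expect_sub_distrib, h1, Fintype.expect_const]
        ring
    rw [sum_blow', length_blow, Nat.cast_mul, mul_left_comm]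
    refine mul_le_mul_of_nonneg_left ?_ (Nat.cast_nonneg _)
    simp only [expect_add_distrib, List.sum_map_add, cutE]
    linarith

end Lin

end Vale.Agent.N325M
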