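import Vale.Agent.N325M.Red
import Vale.Agent.N325M.Defs
import Mathlib.NumberTheory.Bertrand
import Mathlib.Algebra.Field.ZMod
import Mathlib.Combinatorics.SimpleGraph.DegreeSum

/-!
From lists of edges to simple graphs: every vertex is replaced by a cloud, and clouds are joined
by pairwise independent hash functions.
-/

namespace Vale.Agent.N325M

open Finset Vale.Agent.Lib.PCP Vale.Agent.Lib.PolyTime Vale.Agent.P325 Vale.Agent.N325
open scoped BigOperators

theorem sum_range_mul' (n m : ℕ) (φ : ℕ → ℝ) :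
    ∑ i ∈ range (n * m), φ i = ∑ p ∈ range n, ∑ r ∈ range m, φ (p * m + r) := by
  induction n with
  | zero => simp
  | succ n ih => rw [Nat.succ_mul, sum_range_add, ih, sum_range_succ]

theorem mul_add_div' {m r : ℕ} (h : r < m) (p : ℕ) : (p * m + r) / m = p := by
  rw [mul_comm, Nat.mul_add_div (by omega), Nat.div_eq_of_lt h, add_zero]

theorem mul_add_mod'' {m r : ℕ} (h : r < m) (p : ℕ) : (p * m + r) % m = r := by
  rw [Nat.mul_add_mod_self_right, Nat.mod_eq_of_lt h]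

theorem sum_zmod {P : ℕ} [NeZero P] (φ : ℕ → ℝ) : ∑ a ∈ range P, φ a = ∑ x : ZMod P, φ x.val :=
  (sum_nbij' (fun x : ZMod P => x.val) (fun a => (a : ZMod P)) (fun x _ => mem_range.2 x.val_lt)
    (fun _ _ => mem_univ _) (fun x _ => ZMod.natCast_zmod_val x)
    (fun _ ha => ZMod.val_cast_of_lt (mem_range.1 ha)) fun _ _ => rfl).symm

/-- The hash function with index `a` at the point `b`. -/
def hsh (P a b : ℕ) : ℕ := (a / P * (b % P) + a % P) % P

theorem sum_hsh {P : ℕ} [NeZero P] (φ : ℕ → ℕ → ℕ → ℝ) :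
    ∑ a ∈ range (P * P), ∑ b ∈ range (P * P), φ a b (hsh P a b) =
      ∑ x : ZMod P, ∑ y : ZMod P, ∑ z : ZMod P, ∑ u : ZMod P,
        φ (x.val * P + y.val) (z.val * P + u.val) (x * u + y).val := by
  simp only [sum_range_mul']
  simp only [sum_zmod, hsh, mul_add_div' (ZMod.val_lt _),
    mul_add_mod'' (ZMod.val_lt _), ZMod.val_add, ZMod.val_mul, Nat.mod_add_mod]

theorem sum_val_lt {P t : ℕ} [NeZero P] (h : t ≤ P) :
    ∑ y : ZMod P, (if y.val < t then (1 : ℝ) else 0) = t := by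
  have h1 : (range P).filter (fun m => m < t) = range t := by
    ext m
    simp only [mem_filter, mem_range]
    omega
  rw [← sum_zmod fun a => if a < t then (1 : ℝ) else 0, sum_boole, h1, card_range]

theorem hash_eq {P t : ℕ} (hP : 0 < P) (h : t ≤ P) : ∑ a ∈ range (P * P), ∑ b ∈ range (P * P),
    (if hsh P a b < t then (1 : ℝ) else 0) = P ^ 3 * t := by
  have : NeZero P := ⟨hP.ne'⟩
  have h1 : ∀ c : ZMod P, ∑ y : ZMod P, (if (c + y).val < t then (1 : ℝ) else 0) = t := fun c =>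
    (Equiv.sum_comp (Equiv.addLeft c) fun y => if y.val < t then (1 : ℝ) else 0).trans (sum_val_lt h)
  rw [sum_hsh fun _ _ v => if v < t then (1 : ℝ) else 0]
  have h2 : ∀ x : ZMod P, ∑ y : ZMod P, ∑ _z : ZMod P, ∑ u : ZMod P,
      (if (x * u + y).val < t then (1 : ℝ) else 0) = P ^ 2 * t := fun x => by
    simp only [sum_const, card_univ, ZMod.card, nsmul_eq_mul, ← mul_sum]
    rw [sum_comm]
    simp only [h1, sum_const, card_univ, ZMod.card, nsmul_eq_mul]
    ring
  rw [sum_congr rfl fun x _ => h2 x]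
  simp only [sum_const, card_univ, ZMod.card, nsmul_eq_mul]
  ring

theorem hash_le {P t : ℕ} (hP : P.Prime) (h : t ≤ P) {r : ℝ} (hr0 : 0 ≤ r) (hr : t ≤ r ^ 2)
    {α β : ℕ → ℝ} (hα : ∀ a, α a ∈ Set.Icc (0 : ℝ) 1) (hβ : ∀ a, β a ∈ Set.Icc (0 : ℝ) 1) :
    ∑ a ∈ range (P * P), ∑ b ∈ range (P * P), α a * β b * (if hsh P a b < t then (1 : ℝ) else 0) ≤
      t / P * ((∑ a ∈ range (P * P), α a) * ∑ b ∈ range (P * P), β b) + P ^ 3 * r := by
  have := Fact.mk hP
  have hP0 : (0 : ℝ) < P := by exact_mod_cast hP.pos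
  obtain ⟨A, hA⟩ : ∃ A : ZMod P → ℝ, ∀ y, A y = (if y.val < t then (1 : ℝ) else 0) - t / P :=
    ⟨_, fun _ => rfl⟩
  have a1 : ∑ y, A y = 0 := by
    simp only [hA, sum_sub_distrib, sum_val_lt h, sum_const, card_univ, ZMod.card, nsmul_eq_mul]
    field_simp
    ring
  have a2 : ∑ y, A y * A y ≤ t := by
    have h1 : ∀ y, A y * A y = (if y.val < t then (1 : ℝ) else 0) - 2 * (t / P) * A y - (t / P) ^ 2 :=
      fun y => by
        rw [hA]
        split_ifs <;> ring
    simp only [h1, sum_sub_distrib, ← mul_sum, a1, sum_val_lt h]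
    linarith [sum_nonneg fun (_ : ZMod P) (_ : _ ∈ univ) => sq_nonneg ((t : ℝ) / P)]
  have a3 : ∀ u v : ZMod P, ∑ p : ZMod P × ZMod P, A (p.1 * u + p.2) * A (p.1 * v + p.2) ≤
      if u = v then (P : ℝ) * t else 0 := by
    intro u v
    have h1 : ∀ x : ZMod P, ∑ y, A (x * u + y) * A (x * v + y) = ∑ y, A y * A ((v - u) * x + y) :=
      fun x => Fintype.sum_equiv (Equiv.addLeft (x * u)) _ _ fun y => by
        congr 2
        simp only [Equiv.coe_addLeft]
        ring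
    simp only [Fintype.sum_prod_type, h1]
    split_ifs with e
    · simp only [e, sub_self, zero_mul, zero_add, sum_const, card_univ, ZMod.card, nsmul_eq_mul]
      exact mul_le_mul_of_nonneg_left a2 hP0.le
    · have h2 : ∀ y, ∑ x, A ((v - u) * x + y) = 0 := fun y =>
        (Equiv.sum_comp ((Equiv.mulLeft₀ (v - u) (sub_ne_zero.2 (Ne.symm e))).trans
          (Equiv.addRight y)) A).trans a1
      rw [sum_comm]
      simp only [← mul_sum, h2, mul_zero, sum_const_zero, le_refl]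
  obtain ⟨b, hb⟩ : ∃ b : ZMod P → ℝ, ∀ u, b u = ∑ z : ZMod P, β (z.val * P + u.val) :=
    ⟨_, fun _ => rfl⟩
  have b0 : ∀ u, 0 ≤ b u := fun u => hb u ▸ sum_nonneg fun _ _ => (hβ _).1
  have b1 : ∀ u, b u ≤ P := fun u => by
    rw [hb]
    refine (sum_le_sum fun z _ => (hβ _).2).trans (le_of_eq ?_)
    simp
  have c1 : ∑ p : ZMod P × ZMod P, (∑ u, b u * A (p.1 * u + p.2)) ^ 2 ≤ P ^ 4 * r ^ 2 := by
    have h1 : ∀ p : ZMod P × ZMod P, (∑ u, b u * A (p.1 * u + p.2)) ^ 2 =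
        ∑ u, ∑ v, b u * b v * (A (p.1 * u + p.2) * A (p.1 * v + p.2)) := fun p => by
      rw [sq, sum_mul_sum]
      exact sum_congr rfl fun _ _ => sum_congr rfl fun _ _ => by ring
    simp only [h1]
    rw [sum_comm]
    refine (sum_le_sum fun u _ => (?_ : _ ≤ (P : ℝ) ^ 3 * r ^ 2)).trans (le_of_eq ?_)
    · rw [sum_comm]
      simp only [← mul_sum]
      refine (sum_le_sum fun v _ => mul_le_mul_of_nonneg_left (a3 u v)
        (mul_nonneg (b0 u) (b0 v))).trans ?_
      simp only [mul_ite, mul_zero, sum_ite_eq, mem_univ, if_true]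
      refine (mul_le_mul (mul_le_mul (b1 u) (b1 u) (b0 u) hP0.le)
        (mul_le_mul_of_nonneg_left hr hP0.le) (by positivity) (by positivity)).trans (le_of_eq ?_)
      ring
    · simp only [sum_const, card_univ, ZMod.card, nsmul_eq_mul]
      ring
  have c2 : ∑ p : ZMod P × ZMod P, α (p.1.val * P + p.2.val) ^ 2 ≤ P ^ 2 := by
    refine (sum_le_sum fun p _ => pow_le_one₀ (hα _).1 (hα _).2).trans (le_of_eq ?_)
    simp [sq]
  have c3 : ∑ p : ZMod P × ZMod P, α (p.1.val * P + p.2.val) * ∑ u, b u * A (p.1 * u + p.2) ≤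
      P ^ 3 * r := by
    refine le_of_sq_le_sq ((sum_mul_sq_le_sq_mul_sq _ _ _).trans ((mul_le_mul c2 c1
      (sum_nonneg fun _ _ => sq_nonneg _) (sq_nonneg _)).trans (le_of_eq ?_))) (by positivity)
    ring
  have c4 := sum_hsh (P := P) fun a b v => α a * β b * ((if v < t then (1 : ℝ) else 0) - t / P)
  simp only [← hA] at c4
  have c5 : ∀ x y : ZMod P, ∑ z : ZMod P, ∑ u : ZMod P, α (x.val * P + y.val) *
      β (z.val * P + u.val) * A (x * u + y) = α (x.val * P + y.val) * ∑ u, b u * A (x * u + y) := by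
    intro x y
    rw [sum_comm]
    simp only [hb, mul_sum, sum_mul, mul_assoc]
  simp only [c5, mul_sub, sum_sub_distrib] at c4
  rw [Fintype.sum_prod_type, ← c4] at c3
  rw [sum_mul_sum, mul_comm ((t : ℝ) / P)]
  simp only [sum_mul]
  linarith

/-! ### A prime -/

/-- A prime between `m` and `2 * m`. -/
def prm (m : ℕ) : ℕ := ((List.range (2 * m + 1)).filter fun p => decide (m < p) &&
  (List.range (2 * m + 1)).all fun d => decide (d < 2) || decide (p ≤ d) || !decide (d ∣ p)).headD 0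

theorem prm_spec {m : ℕ} (h : 0 < m) : (prm m).Prime ∧ m < prm m := by
  obtain ⟨p, h1, h2, h3⟩ := Nat.exists_prime_lt_and_le_two_mul m h.ne'
  have h4 : prm m ∈ (List.range (2 * m + 1)).filter fun p => decide (m < p) &&
      (List.range (2 * m + 1)).all fun d =>
        decide (d < 2) || decide (p ≤ d) || !decide (d ∣ p) := by
    have h5 : ∀ l : List ℕ, p ∈ l → l.headD 0 ∈ l := fun l hl => by cases l <;> simp_all
    refine h5 _ ?_
    simp only [List.mem_filter, List.mem_range, Bool.and_eq_true, decide_eq_true_eq,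
      List.all_eq_true, Bool.or_eq_true, Bool.not_eq_true', decide_eq_false_iff_not]
    refine ⟨by omega, h2, fun d _ => ?_⟩
    by_contra hc
    push Not at hc
    exact (Nat.prime_def_lt'.1 h1).2 d hc.1.1 hc.1.2 hc.2
  simp only [List.mem_filter, List.mem_range, Bool.and_eq_true, decide_eq_true_eq,
    List.all_eq_true, Bool.or_eq_true, Bool.not_eq_true', decide_eq_false_iff_not] at h4
  refine ⟨Nat.prime_def_lt'.2 ⟨by omega, fun d a1 a2 => ?_⟩, h4.2.1⟩
  rcases h4.2.2 d (by omega) with (a | a) | a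
  exacts [by omega, by omega, a]

theorem prm_le (m : ℕ) : prm m ≤ 2 * m := by
  unfold prm
  cases e : (List.range (2 * m + 1)).filter _ with
  | nil => exact Nat.zero_le _
  | cons a l =>
    have : a ∈ List.range (2 * m + 1) := List.mem_of_mem_filter (e ▸ List.mem_cons_self)
    exact Nat.lt_succ_iff.1 (List.mem_range.1 this)

theorem PT_prm {α : Type} [Enc α] {m : α → ℕ} (h : PT ∅ m) (hb : PBd m) : PT ∅ fun a => prm (m a) := by
  have hr : PT ∅ fun a => List.range (2 * m a + 1) :=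
    PT.range (h.double.add (PT.const 1)) (((PBd.const 2).mul hb).add (PBd.const 1))
  exact PT.headD (PT.filter hr ((PT.lt (h.comp PT.fst') PT.snd').and (PT.all (hr.comp PT.fst')
    (((PT.lt PT.snd' (PT.const 2)).or (PT.le PT.fst'.snd PT.snd')).or
      (PT.decDvd PT.snd' PT.fst'.snd).not)))) (PT.const 0)

/-! ### The graph -/

/-- The number of entries of the list which join `p` and `q`. -/
def mlt (l : List (ℕ × ℕ)) (p q : ℕ) : ℕ :=
  l.countP (fun e => decide (e.1 = p) && decide (e.2 = q)) +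
    l.countP fun e => decide (e.1 = q) && decide (e.2 = p)

theorem mlt_le (l : List (ℕ × ℕ)) (p q : ℕ) : mlt l p q ≤ 2 * l.length := by
  rw [two_mul]
  exact add_le_add List.countP_le_length List.countP_le_length

theorem sum_count {l : List (ℕ × ℕ)} {n : ℕ} (h : ∀ e ∈ l, e.1 < n ∧ e.2 < n) (γ : ℕ → ℕ → ℝ) :
    ∑ p ∈ range n, ∑ q ∈ range n, (l.countP (fun e => decide (e.1 = p) && decide (e.2 = q)) : ℝ) *
      γ p q = (l.map fun e => γ e.1 e.2).sum := by
  simp only [countP_eq_sum, ← List.sum_map_mul_right, ← sum_map_finset_sum]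
  congr 1
  refine List.map_congr_left fun e he => ?_
  simp [ite_and, (h e he).1, (h e he).2]

theorem sum_lt_pairs (c : ℕ) (Ψ : ℕ → ℕ → ℝ) : ∑ j ∈ range c, ∑ j' ∈ range c,
    (if j < j' then Ψ j j' + Ψ j' j else 0) =
      ∑ j ∈ range c, ∑ j' ∈ range c, Ψ j j' - ∑ j ∈ range c, Ψ j j := by
  have h1 : ∀ j j', (if j < j' then Ψ j j' + Ψ j' j else 0) =
      (if j < j' then Ψ j j' else 0) + if j < j' then Ψ j' j else 0 := fun j j' => by
    split_ifs <;> simp
  have h2 : ∀ j j', Ψ j j' = ((if j < j' then Ψ j j' else 0) + if j' < j then Ψ j j' else 0) +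
      if j = j' then Ψ j j' else 0 := fun j j' => by
    rcases lt_trichotomy j j' with h | h | h
    · simp [h, h.ne, h.not_gt]
    · simp [h]
    · simp [h, h.ne', h.not_gt]
  have h3 := sum_congr (rfl : range c = _) fun j _ => sum_congr (rfl : range c = _) fun j' _ => h2 j j'
  have h4 : ∑ j ∈ range c, ∑ j' ∈ range c, (if j = j' then Ψ j j' else 0) = ∑ j ∈ range c, Ψ j j :=
    sum_congr rfl fun j hj => by rw [sum_ite_eq, if_pos hj]
  simp only [sum_add_distrib, h4] at h3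
  simp only [h1, sum_add_distrib]
  rw [sum_comm (f := fun j j' => if j < j' then Ψ j' j else 0)]
  linarith

theorem sum_mlt {l : List (ℕ × ℕ)} {n : ℕ} (h : ∀ e ∈ l, e.1 < n ∧ e.2 < n) (c : ℕ)
    {γ : ℕ → ℕ → ℝ} (hγ : ∀ q q', γ q q' = γ q' q) : ∑ q ∈ range (n * c), ∑ q' ∈ range (n * c),
      (if q % c < q' % c then mlt l (q / c) (q' / c) * γ q q' else 0) =
    ∑ j ∈ range c, ∑ j' ∈ range c, (l.map fun e => γ (e.1 * c + j) (e.2 * c + j')).sum -
      ∑ j ∈ range c, (l.map fun e => γ (e.1 * c + j) (e.2 * c + j)).sum := by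
  rw [← sum_lt_pairs c fun j j' => (l.map fun e => γ (e.1 * c + j) (e.2 * c + j')).sum]
  simp only [sum_range_mul']
  rw [sum_comm]
  refine sum_congr rfl fun j hj => ?_
  rw [sum_congr rfl fun p _ => sum_comm, sum_comm]
  refine sum_congr rfl fun j' hj' => ?_
  simp only [mul_add_div' (mem_range.1 hj), mul_add_div' (mem_range.1 hj'),
    mul_add_mod'' (mem_range.1 hj), mul_add_mod'' (mem_range.1 hj')]
  split_ifs
  · simp only [mlt, Nat.cast_add, add_mul, sum_add_distrib]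
    rw [sum_count h fun p q => γ (p * c + j) (q * c + j'), sum_comm,
      sum_count h fun p q => γ (q * c + j) (p * c + j')]
    simp only [hγ (_ * c + j') (_ * c + j)]
  · simp

/-- The oriented adjacency relation. -/
def rel (c K P : ℕ) (l : List (ℕ × ℕ)) (i j : ℕ) : Bool :=
  decide (i / (P * P) % c < j / (P * P) % c) && decide (hsh P (i % (P * P)) (j % (P * P)) <
    K * mlt l (i / (P * P) / c) (j / (P * P) / c))

theorem rel_asymm {c K P : ℕ} {l : List (ℕ × ℕ)} {i j : ℕ} (h : rel c K P l i j = true) :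
    ¬ rel c K P l j i = true := by
  simp only [rel, Bool.and_eq_true, decide_eq_true_eq] at h ⊢
  omega

theorem sum_rel (c K P m : ℕ) (l : List (ℕ × ℕ)) (g : ℕ → ℕ → ℝ) :
    ∑ i ∈ range (m * (P * P)), ∑ j ∈ range (m * (P * P)),
      g i j * (if rel c K P l i j = true then 1 else 0) =
    ∑ q ∈ range m, ∑ q' ∈ range m, if q % c < q' % c then
      ∑ a ∈ range (P * P), ∑ b ∈ range (P * P), g (q * (P * P) + a) (q' * (P * P) + b) *
        (if hsh P a b < K * mlt l (q / c) (q' / c) then 1 else 0) else 0 := by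
  simp only [sum_range_mul' m]
  refine sum_congr rfl fun q _ => ?_
  rw [sum_comm]
  refine sum_congr rfl fun q' _ => ?_
  rw [sum_congr rfl fun a ha => sum_congr rfl fun b hb => by
    simp only [rel, mul_add_div' (mem_range.1 ha), mul_add_div' (mem_range.1 hb),
      mul_add_mod'' (mem_range.1 ha), mul_add_mod'' (mem_range.1 hb), Bool.and_eq_true,
      decide_eq_true_eq]
    rfl]
  split_ifs with h <;> simp [h]

/-- The graph on `N` vertices given by the relation. -/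
def relG (c K P : ℕ) (l : List (ℕ × ℕ)) (N : ℕ) : SimpleGraph (Fin N) where
  Adj u v := (rel c K P l u v || rel c K P l v u) = true
  symm := ⟨fun u v h => by rwa [Bool.or_comm]⟩
  loopless := ⟨fun u h => by
    rw [Bool.or_self] at h
    exact rel_asymm h h⟩

theorem ncard_pairs (c K P : ℕ) (l : List (ℕ × ℕ)) (N : ℕ) (p : ℕ → ℕ → Prop) [DecidableRel p] :
    (({x : Fin N × Fin N | p x.1 x.2 ∧ (relG c K P l N).Adj x.1 x.2}.ncard : ℕ) : ℝ) =
      ∑ i ∈ range N, ∑ j ∈ range N, ((if p i j then 1 else 0) + if p j i then 1 else 0) *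
        (if rel c K P l i j = true then (1 : ℝ) else 0) := by
  classical
  rw [Set.ncard_eq_toFinset_card', Set.toFinset_ofPred, card_filter, Nat.cast_sum,
    Fintype.sum_prod_type]
  simp only [add_mul, sum_add_distrib]
  rw [sum_comm (f := fun i j => (if p j i then (1 : ℝ) else 0) * _), ← sum_add_distrib, sum_range]
  refine sum_congr rfl fun i _ => ?_
  rw [← sum_add_distrib, sum_range]
  refine sum_congr rfl fun j _ => ?_
  have h1 := @rel_asymm c K P l i j
  by_cases a : p i j <;> by_cases b : rel c K P l i j = true <;>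
    by_cases d : rel c K P l j i = true <;> simp_all [relG]

variable {c k P n : ℕ} {l : List (ℕ × ℕ)}

theorem sum_base (hP : 0 < P) (hK : k * k * (2 * l.length) ≤ P) (h : ∀ e ∈ l, e.1 < n ∧ e.2 < n)
    {γ : ℕ → ℕ → ℝ} (hγ : ∀ p q, γ p q = γ q p) :
    ∑ i ∈ range (n * c * (P * P)), ∑ j ∈ range (n * c * (P * P)),
      γ (i / (P * P) / c) (j / (P * P) / c) * (if rel c (k * k) P l i j = true then 1 else 0) =
    P ^ 3 * k ^ 2 * (c ^ 2 - c) * (l.map fun e => γ e.1 e.2).sum := by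
  rw [sum_rel, sum_congr rfl fun q _ => sum_congr rfl fun q' _ => if_congr Iff.rfl
    (show _ = mlt l (q / c) (q' / c) * (P ^ 3 * k ^ 2 * γ (q / c) (q' / c)) from ?_) rfl,
    sum_mlt h c fun q q' => by rw [hγ]]
  · have h1 : ∀ j ∈ range c, ∀ j' ∈ range c, (l.map fun e => (P : ℝ) ^ 3 * k ^ 2 *
        γ ((e.1 * c + j) / c) ((e.2 * c + j') / c)).sum =
        P ^ 3 * k ^ 2 * (l.map fun e => γ e.1 e.2).sum := fun j hj j' hj' => by
      simp only [mul_add_div' (mem_range.1 hj), mul_add_div' (mem_range.1 hj'),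
        List.sum_map_mul_left]
    rw [sum_congr rfl fun j hj => sum_congr rfl (h1 j hj), sum_congr rfl fun j hj => h1 j hj j hj]
    simp only [sum_const, card_range, nsmul_eq_mul]
    ring
  · rw [sum_congr rfl fun a ha => sum_congr rfl fun b hb => by
      rw [mul_add_div' (mem_range.1 ha), mul_add_div' (mem_range.1 hb)]]
    simp only [← mul_sum]
    rw [hash_eq hP ((Nat.mul_le_mul_left _ (mlt_le _ _ _)).trans hK)]
    push_cast
    ring

theorem card_edges (hP : 0 < P) (hK : k * k * (2 * l.length) ≤ P) (h : ∀ e ∈ l, e.1 < n ∧ e.2 < n) :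
    ((relG c (k * k) P l (n * c * (P * P))).edgeSet.ncard : ℝ) =
      P ^ 3 * k ^ 2 * (c ^ 2 - c) * l.length := by
  classical
  have h1 := ncard_pairs c (k * k) P l (n * c * (P * P)) fun _ _ => True
  have h2 := sum_base (c := c) hP hK h (γ := fun _ _ => 1 + 1) fun _ _ => rfl
  simp only [if_true, true_and] at h1
  rw [h2, sum_map_const, Set.ncard_eq_toFinset_card', Set.toFinset_ofPred] at h1
  have h3 := congrArg (Nat.cast (R := ℝ))
    (relG c (k * k) P l (n * c * (P * P))).two_mul_card_edgeFinset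
  rw [← SimpleGraph.coe_edgeFinset, Set.ncard_coe_finset]
  push_cast at h3
  have h4 := h3.trans h1
  linarith

theorem cut_complete (hP : 0 < P) (hK : k * k * (2 * l.length) ≤ P)
    (h : ∀ e ∈ l, e.1 < n ∧ e.2 < n) (f : ℕ → Bool) :
    P ^ 3 * k ^ 2 * (c ^ 2 - c) * (l.map fun e => if f e.1 = f e.2 then (0 : ℝ) else 1).sum ≤
      maxCut ⟨_, relG c (k * k) P l (n * c * (P * P))⟩ := by
  have h1 := ncard_pairs c (k * k) P l (n * c * (P * P))
    fun i j => f (i / (P * P) / c) = true ∧ ¬ f (j / (P * P) / c) = true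
  rw [← sum_base hP hK h (γ := fun p q => if f p = f q then (0 : ℝ) else 1)
    fun _ _ => if_congr eq_comm rfl rfl]
  refine le_trans (le_of_eq (Eq.trans ?_ h1.symm)) (Nat.cast_le.2 ?_)
  · refine sum_congr rfl fun i _ => sum_congr rfl fun j _ => ?_
    congr 1
    by_cases a : f (i / (P * P) / c) = true <;> by_cases b : f (j / (P * P) / c) = true <;>
      simp [a, b]
  · refine le_trans (le_of_eq ?_) (le_ciSup (Finite.bddAbove_range _)
      {i : Fin (n * c * (P * P)) | f (i / (P * P) / c) = true})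
    simp only [and_assoc, Set.mem_ofPred_eq]

theorem one_sub_mem {x : ℝ} (h : x ∈ Set.Icc (0 : ℝ) 1) : 1 - x ∈ Set.Icc (0 : ℝ) 1 :=
  ⟨by linarith [h.2], by linarith [h.1]⟩

theorem avg_mem {m : ℕ} {φ : ℕ → ℝ} (hφ : ∀ i, φ i ∈ Set.Icc (0 : ℝ) 1) :
    (∑ i ∈ range m, φ i) / m ∈ Set.Icc (0 : ℝ) 1 :=
  ⟨div_nonneg (sum_nonneg fun _ _ => (hφ _).1) (Nat.cast_nonneg _), div_le_one_of_le₀
    ((sum_le_sum fun i _ => (hφ i).2).trans (by simp)) (Nat.cast_nonneg _)⟩

theorem cloud_le (hP : P.Prime) {μ : ℕ} (ht : k * k * μ ≤ P) {α β : ℕ → ℝ}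
    (hα : ∀ i, α i ∈ Set.Icc (0 : ℝ) 1) (hβ : ∀ i, β i ∈ Set.Icc (0 : ℝ) 1) {x y : ℝ}
    (hx : ∑ i ∈ range (P * P), α i = P * P * x) (hy : ∑ i ∈ range (P * P), β i = P * P * y) :
    ∑ a ∈ range (P * P), ∑ b ∈ range (P * P), (α a * (1 - β b) + (1 - α a) * β b) *
      (if hsh P a b < k * k * μ then (1 : ℝ) else 0) ≤
      μ * (P ^ 3 * k ^ 2 * (x * (1 - y) + (1 - x) * y)) + μ * (2 * P ^ 3 * k) := by
  have hP0 : (0 : ℝ) < P := by exact_mod_cast hP.pos
  have hr : ((k * k * μ : ℕ) : ℝ) ≤ (k * μ) ^ 2 :=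
    (Nat.cast_le.2 (Nat.mul_le_mul_left (k * k) (Nat.le_mul_self μ))).trans
      (le_of_eq (by push_cast; ring))
  have b1 := hash_le hP ht (by positivity) hr hα fun i => one_sub_mem (hβ i)
  have b2 := hash_le hP ht (by positivity) hr (fun i => one_sub_mem (hα i)) hβ
  simp only [sum_sub_distrib, hx, hy, sum_const, card_range, nsmul_eq_mul] at b1 b2
  simp only [add_mul, sum_add_distrib]
  refine (add_le_add b1 b2).trans (le_of_eq ?_)
  push_cast
  field_simp
  ring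

theorem copies_le (hc : 0 < c) (h : ∀ e ∈ l, e.1 < n ∧ e.2 < n) {s : ℝ}
    (hs : ∀ f : ℕ → ℝ, (∀ v, f v ∈ Set.Icc (0 : ℝ) 1) →
      (l.map fun e => f e.1 * (1 - f e.2) + (1 - f e.1) * f e.2).sum ≤ s * l.length) {a : ℕ → ℝ}
    (a1 : ∀ q, a q ∈ Set.Icc (0 : ℝ) 1) {K : ℝ} (hK : 0 ≤ K) :
    ∑ q ∈ range (n * c), ∑ q' ∈ range (n * c), (if q % c < q' % c then mlt l (q / c) (q' / c) *
      (K * (a q * (1 - a q') + (1 - a q) * a q')) else 0) ≤ K * c ^ 2 * (s * l.length) := by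
  have hc0 : (0 : ℝ) < c := by exact_mod_cast hc
  rw [sum_mlt h c (γ := fun q q' => K * (a q * (1 - a q') + (1 - a q) * a q')) fun q q' => by ring]
  have b1 := hs (fun p => (∑ j ∈ range c, a (p * c + j)) / c) fun p => avg_mem fun _ => a1 _
  refine (sub_le_self _ (sum_nonneg fun _ _ => List.sum_nonneg fun x hx => ?_)).trans
    (le_trans (le_of_eq ?_) (mul_le_mul_of_nonneg_left b1 (by positivity)))
  · obtain ⟨e, -, rfl⟩ := List.mem_map.1 hx
    exact mul_nonneg hK (add_nonneg (mul_nonneg (a1 _).1 (one_sub_mem (a1 _)).1)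
      (mul_nonneg (one_sub_mem (a1 _)).1 (a1 _).1))
  · simp only [← sum_map_finset_sum, ← List.sum_map_mul_left]
    congr 1
    refine List.map_congr_left fun e _ => ?_
    simp only [← mul_sum, sum_add_distrib, sum_sub_distrib, ← sum_mul, sum_const, card_range,
      nsmul_eq_mul]
    field_simp

theorem rel_sound (hP : P.Prime) (hc : 0 < c) (hK : k * k * (2 * l.length) ≤ P)
    (h : ∀ e ∈ l, e.1 < n ∧ e.2 < n) {s : ℝ} (hs : ∀ f : ℕ → ℝ, (∀ v, f v ∈ Set.Icc (0 : ℝ) 1) →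
      (l.map fun e => f e.1 * (1 - f e.2) + (1 - f e.1) * f e.2).sum ≤ s * l.length) {χ : ℕ → ℝ}
    (x1 : ∀ i, χ i ∈ Set.Icc (0 : ℝ) 1) :
    ∑ i ∈ range (n * c * (P * P)), ∑ j ∈ range (n * c * (P * P)),
      (χ i * (1 - χ j) + (1 - χ i) * χ j) * (if rel c (k * k) P l i j = true then 1 else 0) ≤
      P ^ 3 * (k ^ 2 * c ^ 2 * s + 2 * k * (c ^ 2 - c)) * l.length := by
  have hP0 : (0 : ℝ) < P := by exact_mod_cast hP.pos
  obtain ⟨a, ha⟩ : ∃ a : ℕ → ℝ, ∀ q, a q = (∑ i ∈ range (P * P), χ (q * (P * P) + i)) / (P * P : ℕ) :=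
    ⟨_, fun _ => rfl⟩
  have a1 : ∀ q, a q ∈ Set.Icc (0 : ℝ) 1 := fun q => ha q ▸ avg_mem fun _ => x1 _
  have a2 : ∀ q, ∑ i ∈ range (P * P), χ (q * (P * P) + i) = P * P * a q := fun q => by
    rw [ha]
    push_cast
    field_simp
  have b1 := copies_le hc h hs a1 (K := P ^ 3 * k ^ 2) (by positivity)
  have b2 := sum_mlt h c (γ := fun _ _ => 2 * (P : ℝ) ^ 3 * k) fun _ _ => rfl
  simp only [sum_map_const, sum_const, card_range, nsmul_eq_mul] at b2
  have b3 := add_le_add b1 b2.le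
  simp only [← sum_add_distrib] at b3
  rw [sum_rel]
  refine (sum_le_sum fun q _ => sum_le_sum fun q' _ => ?_).trans (b3.trans (le_of_eq (by ring)))
  split_ifs
  · exact cloud_le hP ((Nat.mul_le_mul_left (k * k) (mlt_le l _ _)).trans hK) (fun _ => x1 _)
      (fun _ => x1 _) (a2 q) (a2 q')
  · simp

theorem cut_sound (hP : P.Prime) (hc : 0 < c) (hK : k * k * (2 * l.length) ≤ P)
    (h : ∀ e ∈ l, e.1 < n ∧ e.2 < n) {s : ℝ} (hs : ∀ f : ℕ → ℝ, (∀ v, f v ∈ Set.Icc (0 : ℝ) 1) →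
      (l.map fun e => f e.1 * (1 - f e.2) + (1 - f e.1) * f e.2).sum ≤ s * l.length) :
    (maxCut ⟨_, relG c (k * k) P l (n * c * (P * P))⟩ : ℝ) ≤
      P ^ 3 * (k ^ 2 * c ^ 2 * s + 2 * k * (c ^ 2 - c)) * l.length := by
  classical
  obtain ⟨S, hS⟩ := exists_eq_ciSup_of_finite (f := fun S : Set (Fin (n * c * (P * P))) =>
    {p : Fin _ × Fin _ | p.1 ∈ S ∧ p.2 ∉ S ∧ (relG c (k * k) P l _).Adj p.1 p.2}.ncard)
  obtain ⟨Q, hQ⟩ : ∃ Q : ℕ → Prop, ∀ i : Fin (n * c * (P * P)), i ∈ S ↔ Q i :=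
    ⟨fun i => ∃ h : i < n * c * (P * P), ⟨i, h⟩ ∈ S, fun i => by simp⟩
  have h1 := ncard_pairs c (k * k) P l (n * c * (P * P)) fun i j => Q i ∧ ¬ Q j
  simp only [← hQ, and_assoc] at h1
  rw [maxCut, ← hS, h1]
  refine le_trans (le_of_eq (sum_congr rfl fun i _ => sum_congr rfl fun j _ => ?_))
    (rel_sound hP hc hK h hs (χ := fun i => if Q i then 1 else 0) fun i => by split_ifs <;> simp)
  congr 1
  by_cases a : Q i <;> by_cases b : Q j <;> simp [a, b]

/-- The number of vertices of the simple graph. -/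
def simN (c k : ℕ) (G : Un × List (ℕ × ℕ)) : ℕ :=
  G.1.v * c * (prm (k * k * (2 * G.2.length)) * prm (k * k * (2 * G.2.length)))

/-- The simple graph. -/
def simG (c k : ℕ) (G : Un × List (ℕ × ℕ)) : Σ n : ℕ, SimpleGraph (Fin n) :=
  ⟨simN c k G, relG c (k * k) (prm (k * k * (2 * G.2.length))) G.2 _⟩

/-- The data which is written down. -/
def simD (c k : ℕ) (G : Un × List (ℕ × ℕ)) : Un × Raw :=
  (⟨simN c k G⟩, ⟨((List.range (simN c k G)).map fun u => (List.range (simN c k G)).map fun v =>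
    rel c (k * k) (prm (k * k * (2 * G.2.length))) G.2 u v ||
      rel c (k * k) (prm (k * k * (2 * G.2.length))) G.2 v u).flatten⟩)

theorem code_simG (G : Un × List (ℕ × ℕ)) : graphCode (simG c k G) = enc (simD c k G) := by
  rw [simD, enc_pair, enc_un, enc_raw, graphCode, pair_eq_pr]
  congr 2
  rw [← ofFn_eq_map_range]
  congr 1
  funext u
  rw [← ofFn_eq_map_range]
  congr 1
  funext v
  rw [Bool.eq_iff_iff]
  simp only [decide_eq_true_eq]
  rfl

theorem PT_rel {α : Type} [Enc α] {P i j : α → ℕ} {l : α → List (ℕ × ℕ)} (hP : PT ∅ P)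
    (hl : PT ∅ l) (hi : PT ∅ i) (hj : PT ∅ j) (c K : ℕ) :
    PT ∅ fun a => rel c K (P a) (l a) (i a) (j a) := by
  have h1 : ∀ {i j : α → ℕ}, PT ∅ i → PT ∅ j → PT ∅ fun a =>
      (l a).countP fun e => decide (e.1 = i a) && decide (e.2 = j a) := fun hi hj =>
    PT.countP hl ((PT.eqNat PT.snd'.fst (hi.comp PT.fst')).and
      (PT.eqNat PT.snd'.snd (hj.comp PT.fst')))
  have h2 := hP.mul hP
  have h3 := (hi.div h2).div (PT.const c)
  have h4 := (hj.div h2).div (PT.const c)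
  exact (PT.lt ((hi.div h2).mod (PT.const c)) ((hj.div h2).mod (PT.const c))).and
    (PT.lt ((((((hi.mod h2).div hP).mul ((hj.mod h2).mod hP))).add ((hi.mod h2).mod hP)).mod hP)
      ((PT.const K).mul ((h1 h3 h4).add (h1 h4 h3))))

theorem PT_simP (k : ℕ) : PT ∅ fun G : Un × List (ℕ × ℕ) => prm (k * k * (2 * G.2.length)) :=
  PT_prm ((PT.const _).mul PT.snd'.length.double)
    ((PBd.const _).mul ((PBd.const 2).mul (PBd.length (A := ∅) PT.snd')))

theorem PT_simD (c k : ℕ) : PT ∅ (simD c k) := by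
  have hp := PT_simP k
  have hpb : PBd fun G : Un × List (ℕ × ℕ) => prm (k * k * (2 * G.2.length)) :=
    ((PBd.const 2).mul ((PBd.const _).mul ((PBd.const 2).mul
      (PBd.length (A := ∅) PT.snd')))).mono fun _ => prm_le _
  have hn : PT ∅ (simN c k) := (PT.fst'.unVal.mul (PT.const _)).mul (hp.mul hp)
  have hb : PBd (simN c k) := ((PBd.unVal (A := ∅) PT.fst').mul (PBd.const _)).mul (hpb.mul hpb)
  have hr := PT.range hn hb
  have h0 : PT ∅ fun p : ((Un × List (ℕ × ℕ)) × ℕ) × ℕ => p.1.1.2 := PT.fst'.fst.snd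
  have h1 : PT ∅ fun p : ((Un × List (ℕ × ℕ)) × ℕ) × ℕ => p.1.2 := PT.fst'.snd
  have h2 : PT ∅ fun p : ((Un × List (ℕ × ℕ)) × ℕ) × ℕ => p.2 := PT.snd'
  have h3 : PT ∅ fun p : ((Un × List (ℕ × ℕ)) × ℕ) × ℕ => prm (k * k * (2 * p.1.1.2.length)) :=
    hp.comp PT.fst'.fst
  exact PT.pair (PT.mkUn hn hb) (PT.rawOfList (PT.flatten (PT.map hr (PT.map (hr.comp PT.fst')
    ((PT_rel h3 h0 h1 h2 c _).or (PT_rel h3 h0 h2 h1 c _))))))

/-- The number of edges of the simple graph. -/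
def simE (c k : ℕ) (G : Un × List (ℕ × ℕ)) : ℕ :=
  prm (k * k * (2 * G.2.length)) ^ 3 * (k ^ 2 * (c ^ 2 - c)) * G.2.length

theorem PT_simE (c k : ℕ) : PT ∅ (simE c k) :=
  (((PT_simP k).powConst 3).mul (PT.const _)).mul PT.snd'.length

theorem sim_spec (hc : 2 ≤ c) (hk : 0 < k) {a s : ℝ} (hs : 0 ≤ s) (G : Un × List (ℕ × ℕ)) :
    ((CutP a s).yes G → 0 < simE c k G ∧ (simG c k G).2.edgeSet.ncard = simE c k G ∧
      a * simE c k G ≤ maxCut (simG c k G)) ∧
    ((CutP a s).no G → 0 < simE c k G ∧ (simG c k G).2.edgeSet.ncard = simE c k G ∧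
      maxCut (simG c k G) ≤ (s + 2 * s / c + 2 / k) * simE c k G) := by
  have hc' : (2 : ℝ) ≤ c := by exact_mod_cast hc
  have hk' : (0 : ℝ) < k := by exact_mod_cast hk
  have h1 : c < c ^ 2 := by nlinarith
  have h2 : (simE c k G : ℝ) = prm (k * k * (2 * G.2.length)) ^ 3 * k ^ 2 * (c ^ 2 - c) *
      G.2.length := by
    rw [simE]
    push_cast [Nat.cast_sub h1.le]
    ring
  have h3 : (G.2 ≠ [] ∧ ∀ e ∈ G.2, e.1 < G.1.v ∧ e.2 < G.1.v) →
      ((prm (k * k * (2 * G.2.length))).Prime ∧ k * k * (2 * G.2.length) ≤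
        prm (k * k * (2 * G.2.length))) ∧ 0 < simE c k G ∧
        (simG c k G).2.edgeSet.ncard = simE c k G := fun h => by
    have a1 := List.length_pos_iff.2 h.1
    obtain ⟨a2, a3⟩ := prm_spec (m := k * k * (2 * G.2.length)) (by positivity)
    refine ⟨⟨a2, a3.le⟩, Nat.mul_pos (Nat.mul_pos (pow_pos a2.pos _)
      (Nat.mul_pos (pow_pos hk _) (Nat.sub_pos_of_lt h1))) a1, Nat.cast_injective (R := ℝ) ?_⟩
    rw [h2]
    exact card_edges a2.pos a3.le h.2
  have h4 : (0 : ℝ) ≤ c ^ 2 - c := by nlinarith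
  refine ⟨fun ⟨h, f, hf⟩ => ?_, fun ⟨h, hf⟩ => ?_⟩
  · obtain ⟨⟨a1, a2⟩, a3, a4⟩ := h3 h
    refine ⟨a3, a4, le_trans ?_ (cut_complete a1.pos a2 h.2 f)⟩
    rw [h2, mul_left_comm]
    exact mul_le_mul_of_nonneg_left hf (by positivity)
  · obtain ⟨⟨a1, a2⟩, a3, a4⟩ := h3 h
    refine ⟨a3, a4, (cut_sound a1 (by omega) a2 h.2 hf).trans ?_⟩
    have b1 : (k : ℝ) ^ 2 * c ^ 2 * s + 2 * k * (c ^ 2 - c) ≤
        (s + 2 * s / c + 2 / k) * (k ^ 2 * (c ^ 2 - c)) := by
      have b2 : (s + 2 * s / c + 2 / k) * (k ^ 2 * (c ^ 2 - c)) =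
          k ^ 2 * c ^ 2 * s + 2 * k * (c ^ 2 - c) + k ^ 2 * s * (c - 2) := by
        field_simp
        ring
      have b3 : 0 ≤ (k : ℝ) ^ 2 * s * (c - 2) := mul_nonneg (by positivity) (by linarith)
      linarith
    rw [h2]
    refine (mul_le_mul_of_nonneg_right (mul_le_mul_of_nonneg_left b1 (by positivity))
      (Nat.cast_nonneg _)).trans (le_of_eq (by ring))

end Vale.Agent.N325M
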