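import Vale.Agent.N325M.Four

/-!
Functions with small influences: the correlation is bounded by the value of any function on the
unit square whose twisted Hessian is negative semidefinite.
-/

namespace Vale.Agent.N325M

open Finset Vale.Agent.P325
open scoped BigOperators

theorem taylor1 {φ φ' : ℝ → ℝ} {a u k κ : ℝ}
    (h : ∀ s ∈ Set.uIcc a (a + u), HasDerivAt φ (φ' s) s)
    (hk : ∀ s ∈ Set.uIcc a (a + u), |φ' s - k| ≤ κ) : |φ (a + u) - φ a - k * u| ≤ κ * |u| := by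
  have h1 := (convex_uIcc a (a + u)).norm_image_sub_le_of_norm_hasDerivWithin_le
    (f := fun s => φ s - k * s) (f' := fun s => φ' s - k) (C := κ)
    (fun s hs => (((h s hs).sub ((hasDerivAt_id s).const_mul k)).congr_deriv
      (by rw [mul_one])).hasDerivWithinAt)
    hk Set.left_mem_uIcc Set.right_mem_uIcc
  rw [Real.norm_eq_abs, Real.norm_eq_abs, add_sub_cancel_left] at h1
  refine le_trans (le_of_eq ?_) h1
  congr 1
  ring

theorem taylor2 {φ φ' φ'' : ℝ → ℝ} {a u k κ : ℝ}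
    (h : ∀ s ∈ Set.uIcc a (a + u), HasDerivAt φ (φ' s) s)
    (h' : ∀ s ∈ Set.uIcc a (a + u), HasDerivAt φ' (φ'' s) s)
    (hk : ∀ s ∈ Set.uIcc a (a + u), |φ'' s - k| ≤ κ) :
    φ (a + u) ≤ φ a + φ' a * u + k * u ^ 2 / 2 + κ * u ^ 2 := by
  have hκ : 0 ≤ κ := (abs_nonneg _).trans (hk a Set.left_mem_uIcc)
  have h1 := taylor1 (φ := fun s => φ s - k * (s - a) ^ 2 / 2)
    (φ' := fun s => φ' s - k * (s - a)) (a := a) (u := u) (k := φ' a) (κ := κ * |u|)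
    (fun s hs => by
      have h2 := (h s hs).sub (((((hasDerivAt_id s).sub_const a).pow 2).const_mul k).div_const 2)
      refine (h2.congr_deriv ?_)
      simp only [id]
      push_cast
      ring)
    fun s hs => by
      have hsub : Set.uIcc a (a + (s - a)) ⊆ Set.uIcc a (a + u) := by
        rw [add_sub_cancel]
        exact Set.uIcc_subset_uIcc Set.left_mem_uIcc hs
      have h2 := taylor1 (φ := φ') (φ' := φ'') (a := a) (u := s - a) (k := k) (κ := κ)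
        (fun t ht => h' t (hsub ht)) fun t ht => hk t (hsub ht)
      rw [add_sub_cancel] at h2
      have h3 : |s - a| ≤ |u| := by simpa using Set.abs_sub_left_of_mem_uIcc hs
      refine le_trans (le_of_eq ?_) (h2.trans (mul_le_mul_of_nonneg_left h3 hκ))
      congr 1
      ring
  rw [mul_assoc, abs_mul_abs_self] at h1
  have h2 := (abs_le.1 h1).2
  simp only [add_sub_cancel_left, sub_self] at h2
  nlinarith

/-- A function on the open unit square with its derivatives of order one and two. -/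
structure Bell (J : ℝ → ℝ → ℝ) (ρ : ℝ) where
  A : ℝ → ℝ → ℝ
  B : ℝ → ℝ → ℝ
  A₁ : ℝ → ℝ → ℝ
  A₂ : ℝ → ℝ → ℝ
  B₂ : ℝ → ℝ → ℝ
  dA : ∀ x ∈ Set.Ioo (0 : ℝ) 1, ∀ y ∈ Set.Ioo (0 : ℝ) 1, HasDerivAt (fun s => J s y) (A x y) x
  dB : ∀ x ∈ Set.Ioo (0 : ℝ) 1, ∀ y ∈ Set.Ioo (0 : ℝ) 1, HasDerivAt (fun s => J x s) (B x y) y
  dA₁ : ∀ x ∈ Set.Ioo (0 : ℝ) 1, ∀ y ∈ Set.Ioo (0 : ℝ) 1, HasDerivAt (fun s => A s y) (A₁ x y) x
  dA₂ : ∀ x ∈ Set.Ioo (0 : ℝ) 1, ∀ y ∈ Set.Ioo (0 : ℝ) 1, HasDerivAt (fun s => A x s) (A₂ x y) y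
  dB₂ : ∀ x ∈ Set.Ioo (0 : ℝ) 1, ∀ y ∈ Set.Ioo (0 : ℝ) 1, HasDerivAt (fun s => B x s) (B₂ x y) y
  c₁ : ContinuousOn (fun p : ℝ × ℝ => A₁ p.1 p.2) (Set.Ioo 0 1 ×ˢ Set.Ioo 0 1)
  c₂ : ContinuousOn (fun p : ℝ × ℝ => A₂ p.1 p.2) (Set.Ioo 0 1 ×ˢ Set.Ioo 0 1)
  c₃ : ContinuousOn (fun p : ℝ × ℝ => B₂ p.1 p.2) (Set.Ioo 0 1 ×ˢ Set.Ioo 0 1)
  n₁ : ∀ x ∈ Set.Ioo (0 : ℝ) 1, ∀ y ∈ Set.Ioo (0 : ℝ) 1, A₁ x y ≤ 0
  n₂ : ∀ x ∈ Set.Ioo (0 : ℝ) 1, ∀ y ∈ Set.Ioo (0 : ℝ) 1, B₂ x y ≤ 0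
  det : ∀ x ∈ Set.Ioo (0 : ℝ) 1, ∀ y ∈ Set.Ioo (0 : ℝ) 1, ρ ^ 2 * A₂ x y ^ 2 ≤ A₁ x y * B₂ x y
  ge : ∀ x ∈ Set.Ioo (0 : ℝ) 1, ∀ y ∈ Set.Ioo (0 : ℝ) 1, x * y ≤ J x y

namespace Bell

variable {J : ℝ → ℝ → ℝ} {ρ : ℝ} (H : Bell J ρ)

theorem taylor_osc {ε κ a b u v : ℝ} (hε : 0 < ε) (ha : a ∈ Set.Icc ε (1 - ε))
    (hb : b ∈ Set.Icc ε (1 - ε)) (hu : a + u ∈ Set.Icc ε (1 - ε)) (hv : b + v ∈ Set.Icc ε (1 - ε))
    (h : ∀ s ∈ Set.uIcc a (a + u), ∀ t ∈ Set.uIcc b (b + v), |H.A₁ s t - H.A₁ a b| ≤ κ ∧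
      |H.A₂ s t - H.A₂ a b| ≤ κ ∧ |H.B₂ s t - H.B₂ a b| ≤ κ) :
    J (a + u) (b + v) ≤ J a b + H.A a b * u + H.B a b * v +
      (H.A₁ a b * u ^ 2 + 2 * H.A₂ a b * (u * v) + H.B₂ a b * v ^ 2) / 2 +
      2 * κ * (u ^ 2 + v ^ 2) := by
  have hI : ∀ {s}, s ∈ Set.Icc ε (1 - ε) → s ∈ Set.Ioo (0 : ℝ) 1 := fun hs =>
    ⟨by linarith [hs.1], by linarith [hs.2]⟩
  have hs : ∀ s ∈ Set.uIcc a (a + u), s ∈ Set.Ioo (0 : ℝ) 1 := fun s hs =>
    hI (Set.uIcc_subset_Icc ha hu hs)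
  have ht : ∀ s ∈ Set.uIcc b (b + v), s ∈ Set.Ioo (0 : ℝ) 1 := fun s hs =>
    hI (Set.uIcc_subset_Icc hb hv hs)
  have hκ : 0 ≤ κ := (abs_nonneg _).trans (h a Set.left_mem_uIcc b Set.left_mem_uIcc).1
  have h1 := taylor2 (φ := fun s => J s (b + v)) (φ' := fun s => H.A s (b + v))
    (φ'' := fun s => H.A₁ s (b + v)) (fun s h' => H.dA s (hs s h') _ (hI hv))
    (fun s h' => H.dA₁ s (hs s h') _ (hI hv)) fun s h' => (h s h' _ Set.right_mem_uIcc).1
  have h2 := taylor2 (φ := fun s => J a s) (φ' := fun s => H.B a s)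
    (φ'' := fun s => H.B₂ a s) (fun s h' => H.dB a (hI ha) s (ht s h'))
    (fun s h' => H.dB₂ a (hI ha) s (ht s h')) fun s h' => (h a Set.left_mem_uIcc s h').2.2
  have h3 := taylor1 (φ := fun s => H.A a s) (φ' := fun s => H.A₂ a s)
    (fun s h' => H.dA₂ a (hI ha) s (ht s h')) fun s h' => (h a Set.left_mem_uIcc s h').2.1
  have h4 : (H.A a (b + v) - H.A a b - H.A₂ a b * v) * u ≤ κ * |v| * |u| :=
    (le_abs_self _).trans (by
      rw [abs_mul]
      exact mul_le_mul_of_nonneg_right h3 (abs_nonneg _))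
  have h5 : |v| * |u| ≤ u ^ 2 + v ^ 2 := by
    nlinarith [sq_abs u, sq_abs v, sq_nonneg (|u| - |v|), mul_nonneg (abs_nonneg u) (abs_nonneg v)]
  have h6 := mul_le_mul_of_nonneg_left h5 hκ
  nlinarith

theorem taylor {ε η : ℝ} (hε : 0 < ε) (hη : 0 < η) : ∃ C : ℝ, 0 ≤ C ∧ ∀ a b u v : ℝ,
    a ∈ Set.Icc ε (1 - ε) → b ∈ Set.Icc ε (1 - ε) → a + u ∈ Set.Icc ε (1 - ε) →
    b + v ∈ Set.Icc ε (1 - ε) → J (a + u) (b + v) ≤ J a b + H.A a b * u + H.B a b * v +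
      (H.A₁ a b * u ^ 2 + 2 * H.A₂ a b * (u * v) + H.B₂ a b * v ^ 2) / 2 +
      η * (u ^ 2 + v ^ 2) + C * (u ^ 4 + v ^ 4) := by
  set Q : Set (ℝ × ℝ) := Set.Icc ε (1 - ε) ×ˢ Set.Icc ε (1 - ε) with hQ
  have hc : IsCompact Q := isCompact_Icc.prod isCompact_Icc
  have hI : Set.Icc ε (1 - ε) ⊆ Set.Ioo (0 : ℝ) 1 := fun s hs =>
    ⟨by linarith [hs.1], by linarith [hs.2]⟩
  have hF : ContinuousOn (fun p : ℝ × ℝ => (H.A₁ p.1 p.2, H.A₂ p.1 p.2, H.B₂ p.1 p.2)) Q :=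
    (H.c₁.prodMk (H.c₂.prodMk H.c₃)).mono (Set.prod_mono hI hI)
  obtain ⟨M, hM⟩ := hc.exists_bound_of_continuousOn hF
  obtain ⟨δ, hδ, hd⟩ := Metric.uniformContinuousOn_iff.1
    (hc.uniformContinuousOn_of_continuous hF) (η / 2) (half_pos hη)
  refine ⟨8 * |M| / δ ^ 2, by positivity, fun a b u v ha hb hu hv => ?_⟩
  have hp : 0 ≤ u ^ 4 + v ^ 4 := by positivity
  have hm : ∀ s ∈ Set.uIcc a (a + u), ∀ t ∈ Set.uIcc b (b + v), (s, t) ∈ Q := fun s hs t ht =>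
    ⟨Set.uIcc_subset_Icc ha hu hs, Set.uIcc_subset_Icc hb hv ht⟩
  by_cases hn : |u| < δ ∧ |v| < δ
  · have h1 := H.taylor_osc (κ := η / 2) hε ha hb hu hv fun s hs t ht => by
      have h2 := hd (s, t) (hm s hs t ht) (a, b) ⟨ha, hb⟩ (by
        rw [Prod.dist_eq, max_lt_iff, Real.dist_eq, Real.dist_eq]
        exact ⟨lt_of_le_of_lt (by simpa using Set.abs_sub_left_of_mem_uIcc hs) hn.1,
          lt_of_le_of_lt (by simpa using Set.abs_sub_left_of_mem_uIcc ht) hn.2⟩)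
      simp only [Prod.dist_eq, max_lt_iff, Real.dist_eq] at h2
      exact ⟨h2.1.le, h2.2.1.le, h2.2.2.le⟩
    have h2 : 0 ≤ 8 * |M| / δ ^ 2 * (u ^ 4 + v ^ 4) := by positivity
    linarith
  · have h1 := H.taylor_osc (κ := 2 * |M|) hε ha hb hu hv fun s hs t ht => by
      have h2 := (hM (s, t) (hm s hs t ht)).trans (le_abs_self M)
      have h3 := (hM (a, b) ⟨ha, hb⟩).trans (le_abs_self M)
      simp only [Prod.norm_def, max_le_iff, Real.norm_eq_abs] at h2 h3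
      refine ⟨(abs_sub _ _).trans ?_, (abs_sub _ _).trans ?_, (abs_sub _ _).trans ?_⟩ <;> linarith [h2.1, h2.2.1, h2.2.2, h3.1, h3.2.1, h3.2.2]
    have h2 : δ ^ 2 ≤ u ^ 2 + v ^ 2 := by
      rcases not_and_or.1 hn with h | h
      · nlinarith [sq_abs u, sq_nonneg v, not_lt.1 h]
      · nlinarith [sq_abs v, sq_nonneg u, not_lt.1 h]
    have h3 : δ ^ 2 * (u ^ 2 + v ^ 2) ≤ 2 * (u ^ 4 + v ^ 4) := by
      nlinarith [sq_nonneg (u ^ 2 - v ^ 2), add_nonneg (sq_nonneg u) (sq_nonneg v)]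
    have h4 : 2 * (2 * |M|) * (u ^ 2 + v ^ 2) ≤ 8 * |M| / δ ^ 2 * (u ^ 4 + v ^ 4) := by
      rw [div_mul_eq_mul_div, le_div_iff₀ (by positivity)]
      nlinarith [mul_le_mul_of_nonneg_left h3 (abs_nonneg M)]
    have h5 : 0 ≤ η * (u ^ 2 + v ^ 2) := by positivity
    linarith

end Bell

/-- One step of the martingale. -/
def Step (J : ℝ → ℝ → ℝ) (W : Type) [Fintype W] (ρ ε η C : ℝ) : Prop :=
  ∀ (a b : ℝ) (u v : W → ℝ), a ∈ Set.Icc ε (1 - ε) → b ∈ Set.Icc ε (1 - ε) →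
    (∀ w, a + u w ∈ Set.Icc ε (1 - ε)) → (∀ w, b + v w ∈ Set.Icc ε (1 - ε)) →
    𝔼 w, u w = 0 → 𝔼 w, v w = 0 →
    (𝔼 w, u w * v w) ^ 2 ≤ ρ ^ 2 * ((𝔼 w, u w ^ 2) * 𝔼 w, v w ^ 2) →
    𝔼 w, J (a + u w) (b + v w) ≤ J a b + η * (𝔼 w, u w ^ 2 + 𝔼 w, v w ^ 2) +
      C * (𝔼 w, u w ^ 4 + 𝔼 w, v w ^ 4)

theorem Bell.step {J : ℝ → ℝ → ℝ} {ρ : ℝ} (H : Bell J ρ) (W : Type) [Fintype W] [Nonempty W]
    {ε η : ℝ} (hε : 0 < ε) (hη : 0 < η) : ∃ C : ℝ, 0 ≤ C ∧ Step J W ρ ε η C := by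
  obtain ⟨C, hC, h⟩ := H.taylor hε hη
  refine ⟨C, hC, fun a b u v ha hb hu hv eu ev huv => ?_⟩
  have hI : ∀ {s}, s ∈ Set.Icc ε (1 - ε) → s ∈ Set.Ioo (0 : ℝ) 1 := fun hs =>
    ⟨by linarith [hs.1], by linarith [hs.2]⟩
  refine (expect_le_expect fun w _ => h a b (u w) (v w) ha hb (hu w) (hv w)).trans ?_
  simp only [expect_add_distrib, ← mul_expect, ← expect_div, eu, ev, Fintype.expect_const]
  have n1 := H.n₁ a (hI ha) b (hI hb)
  have n2 := H.n₂ a (hI ha) b (hI hb)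
  have n3 := H.det a (hI ha) b (hI hb)
  set U := 𝔼 w, u w ^ 2
  set V := 𝔼 w, v w ^ 2
  set S := 𝔼 w, u w * v w
  have hU : 0 ≤ U := expect_nonneg fun _ _ => sq_nonneg _
  have hV : 0 ≤ V := expect_nonneg fun _ _ => sq_nonneg _
  have h1 : (H.A₂ a b * S) ^ 2 ≤ (-H.A₁ a b * U) * (-H.B₂ a b * V) := by
    have h2 := mul_le_mul_of_nonneg_left huv (sq_nonneg (H.A₂ a b))
    have h3 := mul_le_mul_of_nonneg_right n3 (mul_nonneg hU hV)
    nlinarith
  have h2 : 0 ≤ -H.A₁ a b * U := mul_nonneg (by linarith) hU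
  have h3 : 0 ≤ -H.B₂ a b * V := mul_nonneg (by linarith) hV
  have h4 : 2 * (H.A₂ a b * S) ≤ -H.A₁ a b * U + -H.B₂ a b * V :=
    le_of_sq_le_sq (by nlinarith [sq_nonneg (-H.A₁ a b * U - -H.B₂ a b * V)]) (add_nonneg h2 h3)
  linarith

variable {Ω : Type} [Fintype Ω] [DecidableEq Ω] (B : Bas Ω)
variable {ι : Type} [Fintype ι] [DecidableEq ι]

namespace Bas

/-- The influence of a coordinate on the part of degree at most `D`. -/
noncomputable def inf (D : ℕ) (c : (ι → Ω) → ℝ) (i : ι) : ℝ :=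
  ∑ α, if α i ≠ B.o ∧ B.deg α ≤ D then c α ^ 2 else 0

theorem fourth_le {D : ℕ} {τ : ℝ} {c : (ι → Ω) → ℝ} (h1 : ∀ x, |B.syn c x| ≤ 1)
    (h2 : (∑ α, if B.deg α ≤ D then c α ^ 2 else 0) ≤ τ) :
    𝔼 x, B.syn c x ^ 4 ≤ ∑ α, (16 * (4 * Fintype.card Ω : ℝ) ^ (2 * D) * τ +
      if B.deg α ≤ D then 0 else 4) * c α ^ 2 := by
  have := B.nonempty
  have hq : (1 : ℝ) ≤ 4 * Fintype.card Ω := by
    have : (1 : ℝ) ≤ Fintype.card Ω := by exact_mod_cast Fintype.card_pos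
    linarith
  set K : ℝ := 4 * Fintype.card Ω with hK
  set cL : (ι → Ω) → ℝ := fun α => if B.deg α ≤ D then c α else 0 with hL
  set cH : (ι → Ω) → ℝ := fun α => if B.deg α ≤ D then 0 else c α with hH
  have h3 : ∀ x, B.syn c x ^ 4 ≤ 16 * B.syn cL x ^ 4 + 4 * B.syn cH x ^ 2 := by
    intro x
    have a1 := h1 x
    rw [B.syn_split c (fun α => B.deg α ≤ D) x] at a1 ⊢
    set L := B.syn cL x
    set H := B.syn cH x
    have a2 : (L + H) ^ 2 ≤ 1 := by nlinarith [abs_nonneg (L + H), sq_abs (L + H)]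
    have a3 : 0 ≤ L ^ 4 := by positivity
    rcases le_total (H ^ 2) (L ^ 2) with h | h
    · have a4 : (L + H) ^ 2 ≤ 4 * L ^ 2 := by nlinarith [sq_nonneg (L - H)]
      nlinarith [sq_nonneg (L + H), sq_nonneg H]
    · have a4 : (L + H) ^ 2 ≤ 4 * H ^ 2 := by nlinarith [sq_nonneg (L - H)]
      nlinarith [sq_nonneg (L + H)]
  refine (expect_le_expect fun x _ => h3 x).trans ?_
  rw [expect_add_distrib, ← mul_expect, ← mul_expect, B.parseval]
  set S := ∑ α, if B.deg α ≤ D then c α ^ 2 else 0 with hS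
  have hS0 : 0 ≤ S := sum_nonneg fun _ _ => by split_ifs <;> positivity
  have h4 : 𝔼 x, B.syn cL x ^ 4 ≤ (K ^ D * S) ^ 2 := by
    refine (B.bonami cL).trans (pow_le_pow_left₀ (sum_nonneg fun _ _ => by positivity) ?_ 2)
    rw [hS, mul_sum]
    refine sum_le_sum fun α _ => ?_
    simp only [hL]
    split_ifs with hα
    · exact mul_le_mul_of_nonneg_right (pow_le_pow_right₀ hq hα) (sq_nonneg _)
    · simp
  have h5 : S ≤ ∑ α, c α ^ 2 := sum_le_sum fun α _ => by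
    split_ifs
    · exact le_rfl
    · positivity
  have h6 : (K ^ D * S) ^ 2 ≤ K ^ (2 * D) * τ * ∑ α, c α ^ 2 := by
    rw [mul_pow, ← pow_mul, mul_comm D 2, mul_assoc, sq S]
    exact mul_le_mul_of_nonneg_left (mul_le_mul h2 h5 hS0 (hS0.trans h2)) (by positivity)
  have h7 : 4 * ∑ α, cH α ^ 2 = ∑ α, (if B.deg α ≤ D then 0 else 4) * c α ^ 2 := by
    rw [mul_sum]
    refine sum_congr rfl fun α _ => ?_
    simp only [hH]
    split_ifs <;> simp
  simp only [add_mul, sum_add_distrib, ← mul_sum]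
  linarith

variable {W : Type} [Fintype W] [Nonempty W] {ρ' : ℝ} (P : Cor Ω W ρ')

theorem chain {J : ℝ → ℝ → ℝ} {ρ ε η C : ℝ} (hS : Step J W ρ ε η C) (hρ : ρ' ^ 2 ≤ ρ ^ 2)
    (hε : 0 ≤ ε) (hC : 0 ≤ C) (D : ℕ) (τ : ℝ) (s : Finset ι) :
    ∀ c : (ι → Ω) → ℝ, (∀ α i, i ∉ s → α i ≠ B.o → c α = 0) →
      (∀ x, B.syn c x ∈ Set.Icc ε (1 - ε)) → (∀ i, B.inf D c i ≤ τ) →
      𝔼 w : ι → W, J (B.syn c (P.X ∘ w)) (B.syn c (P.Y ∘ w)) ≤ J (c B.z) (c B.z) +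
        ∑ α, (if α = B.z then 0 else 2 * (η + C * (16 * (4 * Fintype.card Ω : ℝ) ^ (2 * D) * τ +
          if B.deg α ≤ D then 0 else 4))) * c α ^ 2 := by
  have := B.nonempty
  induction s using Finset.induction_on with
  | empty =>
    intro c hc _ _
    have h0 : ∀ α, α ≠ B.z → c α = 0 := fun α hα => by
      obtain ⟨i, hi⟩ := Function.ne_iff.1 hα
      exact hc α i (by simp) hi
    have h1 : ∀ x, B.syn c x = c B.z := fun x => by
      rw [syn, Finset.sum_eq_single B.z (fun α _ hα => by rw [h0 α hα, zero_mul]) (by simp), E_z,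
        mul_one]
    rw [Finset.sum_eq_single B.z (fun α _ hα => by rw [h0 α hα]; simp) (by simp)]
    simp [h1]
  | insert i s hi ih =>
    intro c hc hb hinf
    set c0 : (ι → Ω) → ℝ := fun α => if α i = B.o then c α else 0 with hc0
    set c1 : (ι → Ω) → ℝ := fun α => if α i = B.o then 0 else c α with hc1
    set ω : (ι → Ω) → ℝ := fun α => 16 * (4 * Fintype.card Ω : ℝ) ^ (2 * D) * τ +
      if B.deg α ≤ D then 0 else 4 with hω
    have hsp : ∀ x, B.syn c x = B.syn c0 x + B.syn c1 x := B.syn_split c fun α => α i = B.o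
    have hb0 : ∀ x, B.syn c0 x ∈ Set.Icc ε (1 - ε) := fun x => by
      rw [hc0, ← B.avg_syn c x i]
      exact ⟨le_expect univ_nonempty fun _ _ => (hb _).1, expect_le univ_nonempty fun _ _ => (hb _).2⟩
    have hup : ∀ x b, B.syn c0 (Function.update x i b) = B.syn c0 x :=
      B.syn_update fun α hα => if_neg hα
    have hav : ∀ x, 𝔼 b, B.syn c1 (Function.update x i b) = 0 := fun x => by
      rw [B.avg_syn]
      refine sum_eq_zero fun α _ => ?_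
      simp only [hc1]
      split_ifs <;> simp
    have g := ih c0 (fun α j hj hα => by
      simp only [hc0]
      split_ifs with h
      · have hji : j ≠ i := fun e => hα (e ▸ h)
        exact hc α j (by simp [hj, hji]) hα
      · rfl) hb0 fun j => le_trans (sum_le_sum fun α _ => by
        simp only [hc0]
        split_ifs <;> first | exact le_rfl | simpa using sq_nonneg (c α)) (hinf j)
    have hX : ∀ φ : Ω → ℝ, 𝔼 b, φ (P.X b) = 𝔼 b, φ b := fun φ => by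
      have := P.law φ fun _ => 1
      simp only [mul_one, Fintype.expect_const] at this
      linarith
    have hY : ∀ φ : Ω → ℝ, 𝔼 b, φ (P.Y b) = 𝔼 b, φ b := fun φ => by
      have := P.law (fun _ => 1) φ
      simp only [one_mul, Fintype.expect_const] at this
      linarith
    have h1 : ∀ w : ι → W, 𝔼 b, J (B.syn c (P.X ∘ Function.update w i b))
        (B.syn c (P.Y ∘ Function.update w i b)) ≤ J (B.syn c0 (P.X ∘ w)) (B.syn c0 (P.Y ∘ w)) +
        η * (𝔼 b, B.syn c1 (P.X ∘ Function.update w i b) ^ 2 +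
          𝔼 b, B.syn c1 (P.Y ∘ Function.update w i b) ^ 2) +
        C * (𝔼 b, B.syn c1 (P.X ∘ Function.update w i b) ^ 4 +
          𝔼 b, B.syn c1 (P.Y ∘ Function.update w i b) ^ 4) := by
      intro w
      simp only [Function.comp_update]
      have h2 := hS (B.syn c0 (P.X ∘ w)) (B.syn c0 (P.Y ∘ w))
        (fun b => B.syn c1 (Function.update (P.X ∘ w) i (P.X b)))
        (fun b => B.syn c1 (Function.update (P.Y ∘ w) i (P.Y b))) (hb0 _) (hb0 _)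
        (fun b => by rw [← hup _ (P.X b), ← hsp]; exact hb _)
        (fun b => by rw [← hup _ (P.Y b), ← hsp]; exact hb _)
        ((hX fun b => B.syn c1 (Function.update (P.X ∘ w) i b)).trans (hav _))
        ((hY fun b => B.syn c1 (Function.update (P.Y ∘ w) i b)).trans (hav _)) (by
          rw [P.law (fun b => B.syn c1 (Function.update (P.X ∘ w) i b))
            fun b => B.syn c1 (Function.update (P.Y ∘ w) i b),
            hX fun b => B.syn c1 (Function.update (P.X ∘ w) i b) ^ 2,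
            hY fun b => B.syn c1 (Function.update (P.Y ∘ w) i b) ^ 2, hav, zero_mul, mul_zero,
            add_zero, mul_pow]
          exact mul_le_mul hρ (expect_mul_sq_le_sq_mul_sq _ _ _) (sq_nonneg _) (sq_nonneg _))
      simpa only [hsp, hup] using h2
    rw [← expect_update (fun w : ι → W => J (B.syn c (P.X ∘ w)) (B.syn c (P.Y ∘ w))) i]
    refine (expect_le_expect fun w _ => h1 w).trans ?_
    simp only [expect_add_distrib, ← mul_expect]
    rw [expect_update (fun w : ι → W => B.syn c1 (P.X ∘ w) ^ 2),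
      expect_update (fun w : ι → W => B.syn c1 (P.Y ∘ w) ^ 2),
      expect_update (fun w : ι → W => B.syn c1 (P.X ∘ w) ^ 4),
      expect_update (fun w : ι → W => B.syn c1 (P.Y ∘ w) ^ 4),
      B.marg_X P fun x => B.syn c1 x ^ 2, B.marg_Y P fun x => B.syn c1 x ^ 2,
      B.marg_X P fun x => B.syn c1 x ^ 4, B.marg_Y P fun x => B.syn c1 x ^ 4, B.parseval]
    have h2 := B.fourth_le (D := D) (τ := τ) (c := c1) (fun x => by
      have a1 := hb x
      have a2 := hb0 x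
      rw [hsp] at a1
      exact abs_le.2 ⟨by linarith [a1.1, a2.2], by linarith [a1.2, a2.1]⟩)
      (le_trans (le_of_eq (sum_congr rfl fun α _ => by
        simp only [hc1]
        by_cases h : α i = B.o <;> simp [h])) (hinf i))
    have h3 : c0 B.z = c B.z := if_pos rfl
    have h4 : ∑ α, (if α = B.z then 0 else 2 * (η + C * ω α)) * c α ^ 2 =
        ∑ α, (if α = B.z then 0 else 2 * (η + C * ω α)) * c0 α ^ 2 +
          (2 * η * ∑ α, c1 α ^ 2 + 2 * C * ∑ α, ω α * c1 α ^ 2) := by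
      rw [mul_sum, mul_sum, ← sum_add_distrib, ← sum_add_distrib]
      refine sum_congr rfl fun α _ => ?_
      simp only [hc0, hc1]
      by_cases h : α i = B.o
      · simp [h]
      · rw [if_neg fun e => h (by rw [e]; rfl), if_neg h, if_neg h]
        ring
    rw [h3] at g
    have h5 := mul_le_mul_of_nonneg_left h2 hC
    change _ ≤ _ + ∑ α, (if α = B.z then 0 else 2 * (η + C * ω α)) * c α ^ 2
    rw [h4]
    change _ ≤ _ + ∑ α, (if α = B.z then 0 else 2 * (η + C * ω α)) * c0 α ^ 2 at g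
    change _ ≤ C * ∑ α, ω α * c1 α ^ 2 at h5
    linarith

theorem smooth_mem {σ : ℝ} (h0 : 0 ≤ σ) (h1 : σ ≤ 1) {c : (ι → Ω) → ℝ}
    (hc : ∀ x, B.syn c x ∈ Set.Icc (0 : ℝ) 1) (s : Finset ι) : ∀ x,
    B.syn (fun α => σ ^ (s.filter fun i => α i ≠ B.o).card * c α) x ∈ Set.Icc (0 : ℝ) 1 := by
  have := B.nonempty
  induction s using Finset.induction_on with
  | empty => simpa using hc
  | insert i s hi ih =>
    intro x
    set d : (ι → Ω) → ℝ := fun α => σ ^ (s.filter fun i => α i ≠ B.o).card * c α with hd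
    have h2 : B.syn (fun α => σ ^ ((insert i s).filter fun i => α i ≠ B.o).card * c α) x =
        σ * B.syn d x + (1 - σ) * 𝔼 b, B.syn d (Function.update x i b) := by
      rw [B.avg_syn, ← syn_smul, ← syn_smul, ← syn_add]
      congr 1
      funext α
      rw [filter_insert]
      by_cases h : α i = B.o
      · simp only [h, ne_eq, not_true, if_false, if_true, hd]
        ring
      · rw [if_pos h, if_neg h, card_insert_of_notMem (by simp [hi]), hd]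
        ring
    have h3 : 0 ≤ 𝔼 b, B.syn d (Function.update x i b) := expect_nonneg fun _ _ => (ih _).1
    have h4 : 𝔼 b, B.syn d (Function.update x i b) ≤ 1 :=
      expect_le univ_nonempty fun _ _ => (ih _).2
    have h5 := ih x
    rw [h2]
    exact ⟨by nlinarith [h5.1], by nlinarith [h5.2]⟩

theorem succ_mul_pow_le {ρ : ℝ} (h0 : 0 ≤ ρ) (h1 : ρ < 1) (k : ℕ) :
    (k + 1) * ρ ^ k * (1 - ρ) ≤ 1 := by
  induction k with
  | zero => simpa using h0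
  | succ k ih =>
    have h2 : ρ ^ k ≤ 1 := pow_le_one₀ h0 h1.le
    have h3 : 0 ≤ ρ ^ k := pow_nonneg h0 k
    have h4 : (k + 1) * ρ ^ k * (1 - ρ) ≤ 1 - ρ ^ (k + 1) := by
      clear ih h2 h3
      induction k with
      | zero => simp
      | succ k ih =>
        have h5 : ρ ^ (k + 1) ≤ ρ ^ k := pow_le_pow_of_le_one h0 h1.le (Nat.le_succ k)
        have h6 : (0 : ℝ) ≤ (k + 1) * (1 - ρ) := mul_nonneg (by positivity) (by linarith)
        have h7 := mul_le_mul_of_nonneg_left h5 h6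
        push_cast
        rw [pow_succ ρ (k + 1)]
        nlinarith
    have h5 : ρ ^ (k + 1) ≤ ρ ^ k := pow_le_pow_of_le_one h0 h1.le (Nat.le_succ k)
    have h6 : (0 : ℝ) ≤ (k + 1) * (1 - ρ) := mul_nonneg (by positivity) (by linarith)
    have h7 := mul_le_mul_of_nonneg_left h5 h6
    have h8 : 0 ≤ ρ ^ (k + 1) * ρ := by positivity
    push_cast
    nlinarith

theorem loss_le {ρ γ e : ℝ} (h0 : 0 ≤ ρ) (h1 : ρ < 1) (hγ1 : γ ≤ 1) (hγ : 2 * γ ≤ e * (1 - ρ))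
    (he : 0 ≤ e) (k : ℕ) (c : ℝ) : ρ ^ k * (c * c) ≤
      ρ ^ k * ((1 - γ) ^ (k + 1) * c * ((1 - γ) ^ (k + 1) * c)) + e * c ^ 2 := by
  have a1 : 1 - (2 * (k + 1) : ℕ) * γ ≤ (1 - γ) ^ (2 * (k + 1)) := by
    have := one_add_mul_le_pow (a := -γ) (by linarith) (2 * (k + 1))
    rw [sub_eq_add_neg 1 γ]
    linarith
  have a2 := succ_mul_pow_le h0 h1 k
  have a3 : 0 ≤ (k + 1) * ρ ^ k := by positivity
  have a4 : (k + 1) * ρ ^ k * (2 * γ) ≤ e := by
    nlinarith [mul_le_mul_of_nonneg_left hγ a3, mul_le_mul_of_nonneg_left a2 he]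
  have a5 : ρ ^ k * (1 - (1 - γ) ^ (2 * (k + 1))) ≤ e := by
    push_cast at a1
    nlinarith [mul_le_mul_of_nonneg_left a1 (pow_nonneg h0 k)]
  have a6 := mul_le_mul_of_nonneg_right a5 (sq_nonneg c)
  rw [mul_comm 2, pow_mul] at a6
  nlinarith

theorem err_le {e C t x y s : ℝ} (he : 0 ≤ e) (h1 : C * t ≤ e / 8) (h2 : x ≤ y)
    (h0 : 0 ≤ x) (hs : C * (s * x) ≤ e / 8 * y) :
    2 * (e / 8 + C * (t + s)) * x ≤ 3 * e / 4 * y := by
  have a1 := mul_le_mul_of_nonneg_right h1 h0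
  have a2 := mul_le_mul_of_nonneg_left h2 he
  nlinarith

/-- Functions with small influences are at most as stable as the function `J` allows. -/
theorem stablest {J : ℝ → ℝ → ℝ} {ρ : ℝ} (H : Bell J ρ) (h0 : 0 ≤ ρ') (hρ : ρ' ≤ ρ)
    (h1 : ρ' < 1) {μ : ℝ} (hμ : μ ∈ Set.Ioo (0 : ℝ) 1) {ε : ℝ} (hε : 0 < ε) :
    ∃ (D : ℕ) (τ : ℝ), 0 < τ ∧ ∀ (ι : Type) [Fintype ι] [DecidableEq ι] (f : (ι → Ω) → ℝ),
      (∀ x, f x ∈ Set.Icc (0 : ℝ) 1) → 𝔼 x, f x = μ → (∀ i, B.inf D (B.hat f) i ≤ τ) →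
      𝔼 w : ι → W, f (P.X ∘ w) * f (P.Y ∘ w) ≤ J μ μ + ε := by
  have := B.nonempty
  obtain ⟨γ, hγ0, hγ1, hγ⟩ : ∃ γ : ℝ, 0 < γ ∧ γ ≤ 1 ∧ 2 * γ ≤ ε / 4 * (1 - ρ') :=
    ⟨min 1 (ε / 8 * (1 - ρ')), lt_min one_pos (mul_pos (by positivity) (by linarith)),
      min_le_left _ _, by linarith [min_le_right 1 (ε / 8 * (1 - ρ'))]⟩
  set m := min μ (1 - μ) with hm
  have hm0 : 0 < m := lt_min hμ.1 (by linarith [hμ.2])
  obtain ⟨C, hC, hS⟩ := H.step W (mul_pos hγ0 hm0) (η := ε / 8) (by positivity)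
  obtain ⟨D, hD⟩ := exists_pow_lt_of_lt_one (x := ε / (32 * (C + 1))) (y := 1 - γ)
    (by positivity) (by linarith)
  set K : ℝ := 16 * (4 * Fintype.card Ω : ℝ) ^ (2 * D) with hK
  have hK0 : 0 ≤ K := by positivity
  refine ⟨D, ε / (8 * (C * K + 1)), by positivity, fun ι _ _ f hf hfμ hinf => ?_⟩
  set τ := ε / (8 * (C * K + 1)) with hτ
  set σ := 1 - γ with hσ
  have hσ0 : 0 ≤ σ := by linarith
  have hσ1 : σ ≤ 1 := by linarith
  set c := B.hat f with hc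
  have hcz : c B.z = μ := by rw [hc, B.hat_z, hfμ]
  have hc1 : ∑ α, c α ^ 2 ≤ 1 := by
    rw [hc, B.sum_hat_sq]
    exact expect_le univ_nonempty fun x _ => pow_le_one₀ (hf x).1 (hf x).2
  set d : (ι → Ω) → ℝ := fun α => (if α = B.z then γ * μ else 0) + σ * (σ ^ B.deg α * c α)
    with hd
  have hdz : d B.z = μ := by
    simp only [hd, if_true, deg_z, hcz, hσ]
    ring
  have hdn : ∀ α, α ≠ B.z → d α = σ ^ (B.deg α + 1) * c α := fun α h => by
    simp only [hd, if_neg h]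
    ring
  have hdb : ∀ x, B.syn d x ∈ Set.Icc (γ * m) (1 - γ * m) := fun x => by
    have h2 := B.smooth_mem hσ0 hσ1 (c := c) (fun x => by rw [hc, syn_hat]; exact hf x) univ x
    rw [hd, syn_add, syn_const, syn_smul]
    have h3 := mul_le_mul_of_nonneg_left (min_le_left μ (1 - μ)) hγ0.le
    have h4 := mul_le_mul_of_nonneg_left (min_le_right μ (1 - μ)) hγ0.le
    change B.syn (fun α => σ ^ B.deg α * c α) x ∈ _ at h2
    exact ⟨by nlinarith [mul_nonneg hσ0 h2.1], by nlinarith [mul_le_mul_of_nonneg_left h2.2 hσ0]⟩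
  have hdc : ∀ α, d α ^ 2 ≤ c α ^ 2 := fun α => by
    by_cases h : α = B.z
    · rw [h, hdz, hcz]
    · rw [hdn α h, mul_pow]
      exact mul_le_of_le_one_left (sq_nonneg _) (pow_le_one₀ (by positivity) (pow_le_one₀ hσ0 hσ1))
  have h2 := B.chain P hS (pow_le_pow_left₀ h0 hρ 2) (mul_pos hγ0 hm0).le hC D τ univ d
    (fun _ i hi _ => absurd (mem_univ i) hi) hdb fun i => le_trans (sum_le_sum fun α _ => by
      split_ifs
      · exact hdc α
      · exact le_rfl) (hinf i)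
  rw [hdz] at h2
  have hI : ∀ x, B.syn d x ∈ Set.Ioo (0 : ℝ) 1 := fun x =>
    ⟨by linarith [(hdb x).1, mul_pos hγ0 hm0], by linarith [(hdb x).2, mul_pos hγ0 hm0]⟩
  have h3 := (expect_le_expect fun (w : ι → W) _ =>
    H.ge _ (hI (P.X ∘ w)) _ (hI (P.Y ∘ w))).trans h2
  rw [B.cor_syn] at h3
  have h4 := B.cor_syn P c c
  simp only [hc, syn_hat] at h4
  rw [h4, ← hc]
  have h5 : ∑ α, ρ' ^ B.deg α * (c α * c α) ≤
      ∑ α, ρ' ^ B.deg α * (d α * d α) + ε / 4 * ∑ α, c α ^ 2 := by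
    rw [mul_sum, ← sum_add_distrib]
    refine sum_le_sum fun α _ => ?_
    by_cases h : α = B.z
    · rw [h, hdz, hcz]
      have : 0 ≤ ε / 4 * μ ^ 2 := by positivity
      linarith
    · rw [hdn α h]
      exact loss_le h0 h1 hγ1 hγ (by positivity) _ _
  have h6 : ∑ α, (if α = B.z then 0 else 2 * (ε / 8 + C * (K * τ +
      if B.deg α ≤ D then 0 else 4))) * d α ^ 2 ≤ 3 * ε / 4 * ∑ α, c α ^ 2 := by
    rw [mul_sum]
    refine sum_le_sum fun α _ => ?_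
    have b1 : C * (K * τ) ≤ ε / 8 := by
      rw [hτ, ← mul_assoc, ← mul_div_assoc, div_le_iff₀ (by positivity)]
      nlinarith [mul_nonneg hC hK0]
    by_cases h : α = B.z
    · rw [if_pos h, zero_mul]
      positivity
    · rw [if_neg h]
      refine err_le hε.le b1 (hdc α) (sq_nonneg _) ?_
      split_ifs with hα
      · rw [zero_mul, mul_zero]
        positivity
      · have b2 : d α ^ 2 ≤ σ ^ D * c α ^ 2 := by
          rw [hdn α h, mul_pow, ← pow_mul]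
          exact mul_le_mul_of_nonneg_right (pow_le_pow_of_le_one hσ0 hσ1 (by omega)) (sq_nonneg _)
        have b3 : C * σ ^ D ≤ ε / 32 := by
          rw [lt_div_iff₀ (by positivity)] at hD
          have := pow_nonneg hσ0 D
          linarith
        have b4 := mul_le_mul_of_nonneg_left b2 hC
        have b5 := mul_le_mul_of_nonneg_right b3 (sq_nonneg (c α))
        linarith
  have h7 := mul_le_mul_of_nonneg_left hc1 hε.le
  linarith

end Bas

end Vale.Agent.N325M
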